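import Vale.Agent.P280.H475T.Bd3
import Vale.Agent.P280.H226.FaceB

/-! P280, T7, helper475, (Bd): the boundary weights, from the criterion. -/

open DirectSum Vale.Agent.P280.T Vale.Agent.P280.H127

namespace Vale.Agent.P280.H475T

open Vale.Agent.P280.N Vale.Agent.P280.H143

variable {r : ℕ} {R : Type} [CommRing R] [IsDomain R] [Algebra ℂ R]
  {𝒜 : ℕ × (Fin r → ℤ) → Submodule ℂ R} [GradedAlgebra 𝒜]

omit [GradedAlgebra 𝒜] in
theorem FaceX.of_face1 {N : ℤ} {lam : Fin r → ℤ} {m : ℕ} {e : Fin m → Fin r → ℤ}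
    {L0 : (Fin r → ℤ) →+ ℤ} {β : Fin m → Bool → ((Fin r → ℤ) →+ ℤ)} {E F : Fin m → Bool → VF R}
    (h : H226.Face1 𝒜 N lam m e L0 β E F) : FaceX 𝒜 N lam m e L0 β E F where
  N0 := h.N0
  m1 := h.m1
  wt := h.wt
  pos := h.pos
  max := h.max
  top := h.top
  lze := h.lze
  vt := h.vt
  root := h.root
  bl := h.bl
  be := h.be
  S := h.S

/-- (Bd). The boundary weights are liftable and of multiplicity one. -/
theorem bd_of_crit' (H : H63X.Hyp 𝒜) (hcrit : Crit 𝒜) : H60.Bd 𝒜 := by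
  obtain ⟨N, b, E, F, hN, hr⟩ := H63X.exists_root_data H
  refine bd_of_crit H hcrit fun χ hw hB => ?_
  obtain ⟨l, hl, hmax⟩ := hB
  rcases H226.exists_face' H hN hr hw l hl hmax with h | ⟨m, e, L0, hF⟩
  · exact Or.inl h
  · exact Or.inr ⟨_, _, _, _, _, _, _, FaceX.of_face1 hF⟩

end Vale.Agent.P280.H475T
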