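import Vale.Agent.P280.H475T.InstP
import Vale.Agent.P280.H749.Crit

/-! P280, T7, helper475: boundary weights, bad end, interior weights of type `A`. -/

open DirectSum Vale.Agent.P280.T Vale.Agent.P280.H127

namespace Vale.Agent.P280.H475T

open Vale.Agent.P280.N Vale.Agent.P280.N.H989 Vale.Agent.P280.H143 Vale.Agent.P280.N2

variable {r : ℕ} {R : Type} [CommRing R] [IsDomain R] [Algebra ℂ R]
  {𝒜 : ℕ × (Fin r → ℤ) → Submodule ℂ R} [GradedAlgebra 𝒜]

/-- The lifting criterion. -/
theorem crit (H : H63X.Hyp 𝒜) : Crit 𝒜 := H60.crit_vx H (H749.crit_data H)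

/-- The boundary weights are liftable and of multiplicity one. -/
theorem bd (H : H63X.Hyp 𝒜) : H60.Bd 𝒜 := bd_of_data H (H749.crit_data H)

theorem badP_fin (H : H63X.Hyp 𝒜) : H641.BadP 𝒜 := badP H (H749.crit_data H)

end Vale.Agent.P280.H475T
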