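import Vale.Agent.P280.H475T.Face
import Vale.Agent.P280.H60.Rt
import Vale.Agent.P280.H749.Loc
import Vale.Agent.P280.H749.Wall
import Vale.Agent.P280.N2.Rel

/-! P280, T7, helper475: the bad end, local part. -/

open DirectSum Vale.Agent.P280.T Vale.Agent.P280.H127

namespace Vale.Agent.P280.H475T

open Vale.Agent.P280.N Vale.Agent.P280.H143

variable {r : ℕ} {R : Type} [CommRing R] [IsDomain R] [Algebra ℂ R]
  {𝒜 : ℕ × (Fin r → ℤ) → Submodule ℂ R} [GradedAlgebra 𝒜]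

omit [IsDomain R] [GradedAlgebra 𝒜] in
/-- A tangent vector composed with a field which vanishes at the point. -/
theorem tan_comp {q : R →ₐ[ℂ] ℂ} {D : Derivation ℂ R R} (h0 : ∀ x, q (D x) = 0)
    {t : R →ₗ[ℂ] ℂ} (ht : IsTangent q t) : IsTangent q (t.comp (D : R →ₗ[ℂ] R)) := by
  intro a b
  change t (D (a * b)) = q a * t (D b) + q b * t (D a)
  rw [Derivation.leibniz, smul_eq_mul, smul_eq_mul, map_add, ht, ht, h0, h0]
  ring

omit [IsDomain R] [GradedAlgebra 𝒜] in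
theorem weight_comp {ν χ ω : Fin r → ℤ} {D : Derivation ℂ R R} (hD : H93.IsHField 𝒜 χ D)
    {t : R →ₗ[ℂ] ℂ} (ht : HasWeight 𝒜 ν ω t) : HasWeight 𝒜 ν (ω + χ) (t.comp (D : R →ₗ[ℂ] R)) := by
  intro d m h hh hne
  have h1 := ht d _ (D h) (hD d m h hh) hne
  rw [sub_eq_iff_eq_add.1 h1, ← add_assoc]

/-- The `sl2` of a root at a point which it fixes. -/
theorem sl2_fix (H : H63X.Hyp 𝒜) {N : ℤ} {v : Fin r → ℤ} {β : (Fin r → ℤ) →+ ℤ}
    {E F : VF R} (hr : Root 𝒜 N v β E F) (hv0 : v ≠ 0) {De Df : Derivation ℂ R R}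
    (he : toVF De = E) (hf : toVF Df = F) (z : FP 𝒜) (hv : ¬ z.Pi v) (hv' : ¬ z.Pi (-v))
    {χ : Fin r → ℤ} {t : R →ₗ[ℂ] ℂ} (ht : IsTangent z.q t) (hw : HasWeight 𝒜 z.ν χ t)
    (hno : ¬ z.Pi (χ + v)) (h0 : χ + v ≠ 0) :
    (∀ x, z.q (De x) = 0) ∧ (∀ x, z.q (Df x) = 0) ∧ ∀ x, t (Df (De x)) = (β χ : ℂ) * t x := by
  subst he
  subst hf
  have hDe : H93.IsHField 𝒜 v De := hr.hvE.isHField
  have hDf : H93.IsHField 𝒜 (-v) Df := hr.hvF.isHField
  have ze : ∀ x, z.q (De x) = 0 := fun x => H60.val_zero z hv0 hDe hv x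
  have zf : ∀ x, z.q (Df x) = 0 := fun x => H60.val_zero z (neg_ne_zero.2 hv0) hDf hv' x
  refine ⟨ze, zf, ?_⟩
  obtain ⟨α, hα⟩ := hr.br
  have hbr : ∀ d m, ∀ h ∈ 𝒜 (d, m), De (Df h) - Df (De h) =
      -(((d : ℂ) * α + (β m : ℂ)) • h) := by
    intro d m h hh
    have h1 := hα d m h hh
    rw [← toVF_lie, toVF_iK, Derivation.commutator_apply] at h1
    apply iK_inj
    rw [h1, iK_neg, iK_smul]
  obtain ⟨g0, hg0, hg1⟩ := exists_deg_one_ne H.hX.gen z.nv z.fix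
  have hcst : α + (β z.ν : ℂ) = 0 := by
    have h1 := congrArg z.q (hbr 1 _ g0 hg0)
    rw [map_sub, ze, zf, sub_self, map_neg, map_smul, smul_eq_mul] at h1
    have h2 : ((1 : ℕ) : ℂ) * α + (β z.ν : ℂ) = 0 :=
      (mul_eq_zero.1 (neg_eq_zero.1 h1.symm)).resolve_right hg1
    rwa [Nat.cast_one, one_mul] at h2
  have hte : ∀ x, t (De x) = 0 := by
    intro x
    by_contra hne
    refine hno (tangentWeight_of_ne z.fix h0 (tan_comp ze ht) (weight_comp hDe hw) ?_)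
    intro h1
    exact hne (LinearMap.congr_fun h1 x)
  have key : (t.comp ((Df : R →ₗ[ℂ] R).comp (De : R →ₗ[ℂ] R))) = (β χ : ℂ) • t := by
    apply linearMap_ext_graded 𝒜
    rintro ⟨d, m⟩ h hh
    change t (Df (De h)) = (β χ : ℂ) * t h
    have h1 := congrArg t (hbr d m h hh)
    rw [map_sub, hte, zero_sub, map_neg, neg_inj, map_smul, smul_eq_mul] at h1
    rw [h1]
    by_cases h2 : t h = 0
    · rw [h2, mul_zero, mul_zero]
    · have h3 := hw d m h hh h2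
      rw [h3, map_add, map_nsmul, nsmul_eq_mul]
      push_cast
      linear_combination (d : ℂ) * t h * hcst
  exact fun x => LinearMap.congr_fun key x

/-- The local part of the bad end: a rational field `ρ` with `s ρ = g ^ d D - f D'`. -/
theorem rho_val (H : H63X.Hyp 𝒜) (z : FP 𝒜) {g0 : R} {w : Fin r → ℤ} {dz : ℕ} {zc : R} (hzc : z.q zc = 0) {D D' : Derivation ℂ R R}
    (hD : ∀ x, z.q (D x) = 0) {f : FractionRing R} (hf : Rg z.q f) {df : ℤ} {mf : Fin r → ℤ}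
    (hfk : HK 𝒜 df mf f) (hf1 : mf ≠ df • z.ν) (hf2 : mf ≠ df • z.ν + w) {ρ : VF R}
    (hρ : RgV z.q ρ) (heq : ∀ h : R, iK zc * ρ (iK h) = iK (g0 ^ dz) * iK (D h) - f * iK (D' h))
    {t0 : R →ₗ[ℂ] ℂ} (ht0 : IsTangent z.q t0) (ht0w : HasWeight 𝒜 z.ν w t0)
    (hne : t0 zc ≠ 0) (h : R) :
    Val z.q (ρ (iK h)) ((z.q g0 ^ dz) * t0 (D h) / t0 zc) := by
  obtain ⟨a, s1, hs1, e1⟩ := hρ h
  obtain ⟨k, k', s, a', hs, ha', hk', h1, e2⟩ := hfk.exists_den H.hX z.nv z.fix hf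
  have hza' : z.q a' = 0 := by
    by_contra hcon
    have h2 := z.fix _ _ _ ha' hcon
    apply hf1
    have h3 : (k' : ℤ) • z.ν = mf + (k : ℤ) • z.ν := by
      rw [natCast_zsmul, natCast_zsmul]
      exact h2.symm
    rw [hk', add_smul] at h3
    exact (add_right_cancel h3).symm
  have hta' : t0 a' = 0 := by
    by_contra hcon
    have h2 := ht0w _ _ _ ha' hcon
    apply hf2
    have h3 : mf + (k : ℤ) • z.ν = (k' : ℤ) • z.ν + w := by
      rw [natCast_zsmul, natCast_zsmul]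
      exact h2
    rw [hk', add_smul] at h3
    have h4 : mf = df • z.ν + (k : ℤ) • z.ν + w - (k : ℤ) • z.ν := by rw [← h3]; abel
    rw [h4]
    abel
  have e3 : zc * (a * s) = D h * (g0 ^ dz * (s1 * s)) - a' * (s1 * D' h) := by
    apply iK_inj
    rw [iK_mul, iK_mul, iK_sub, iK_mul, iK_mul, iK_mul, iK_mul, iK_mul, ← e1, ← e2]
    linear_combination (iK s1 * iK s) * heq h
  have e4 := congrArg t0 e3
  rw [map_sub, ht0 zc, ht0 (D h), ht0 a', hzc, hD, hza', hta'] at e4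
  have e5 : z.q a * t0 zc = z.q g0 ^ dz * z.q s1 * t0 (D h) := by
    rw [map_mul z.q a s, map_mul z.q (g0 ^ dz), map_mul z.q s1 s, map_pow z.q, h1] at e4
    linear_combination e4
  refine ⟨a, s1, hs1, e1, ?_⟩
  field_simp
  linear_combination e5

end Vale.Agent.P280.H475T
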