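import Vale.Agent.P280.H475T.BadA

/-! P280, T7, helper475: the bad end. -/

open DirectSum Vale.Agent.P280.T Vale.Agent.P280.H127

namespace Vale.Agent.P280.H475T

open Vale.Agent.P280.N Vale.Agent.P280.N.H989 Vale.Agent.P280.H143 Vale.Agent.P280.N2

variable {r : ℕ} {R : Type} [CommRing R] [IsDomain R] [Algebra ℂ R]
  {𝒜 : ℕ × (Fin r → ℤ) → Submodule ℂ R}

/-- The criterion for prescribed polar parts, for two fields. -/
def CritD (𝒜 : ℕ × (Fin r → ℤ) → Submodule ℂ R) : Prop :=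
  ∀ c : (Fin r → ℤ) →+ ℤ, (∀ μ, Wt 𝒜 μ → c μ ≠ 0) → ∀ p : FP 𝒜, Pos c p →
  ∀ (χ : Fin r → ℤ) (w : Bool → Fin r → ℤ), Function.Injective w →
  ∀ E : Bool → Derivation ℂ R R, (∀ i, H93.IsHField 𝒜 (w i) (E i)) → (∀ i, c χ < c (w i)) →
  ∀ g : FP 𝒜 → Bool → FractionRing R,
  (∀ y b, H749.Wl c y b → ∀ i, HK 𝒜 0 (w i - χ) (g y i)) →
  (∀ y b, H749.Wl c y b → ∀ i d z, Crd y (-b) d z → ∃ k : ℕ, Rg y.q (iK z ^ k * g y i)) →
  (∀ y b (y' : FP 𝒜), H749.Wl c y b → SamePoint 𝒜 y.q y'.q → ∀ i, Rg y.q (g y i - g y' i)) →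
  (∀ y b, H749.Wl c y b → RgV y.q (∑ i, g y i • toVF (E i))) →
  (∀ (z : FP 𝒜) (b b' : Fin r → ℤ), z.Pi (-b) → z.Pi (-b') → 0 < c b → 0 < c b' →
    (∀ ψ, z.Pi ψ → ψ ≠ -b → ψ ≠ -b' → 0 < c ψ) → ∀ i, (∃ h, z.q (E i h) ≠ 0) ∨
      ∀ (k k' : ℕ) (M : List (Fin r → ℤ)), 1 ≤ k → 1 ≤ k' → (∀ μ ∈ M, z.Pi μ ∧ 0 < c μ) →
        w i ≠ χ + k • b + k' • b' + M.sum) →
  ∃ x : Bool → FractionRing R, (∀ i, HK 𝒜 0 (w i - χ) (x i)) ∧
    (∀ y b, H749.Wl c y b → ∀ i, Rg y.q (x i - g y i)) ∧ Glob (∑ i, x i • toVF (E i))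

/-- The polar part at a wall, for two fields. -/
def FrameD (𝒜 : ℕ × (Fin r → ℤ) → Submodule ℂ R) : Prop :=
  ∀ (c : (Fin r → ℤ) →+ ℤ) (y : FP 𝒜) (b : Fin r → ℤ), H749.Wl c y b →
  ∀ (χ : Fin r → ℤ) (v : VF R), HV 𝒜 χ v → ∀ (d : ℕ) (z : R), Crd y (-b) d z →
  ∀ k : ℕ, RgV y.q (iK z ^ k • v) → 0 < c χ →
  ∀ w : Bool → Fin r → ℤ, Function.Injective w →
  ∀ E : Bool → Derivation ℂ R R, (∀ i, H93.IsHField 𝒜 (w i) (E i)) →
  (∀ i, y.Pi (w i) → (∃ h, y.q (E i h) ≠ 0) ∧ H60.One 𝒜 y (w i)) →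
  (∀ ω, y.Pi ω → ∀ (k : ℕ) (M : List (Fin r → ℤ)), 1 ≤ k → (∀ μ ∈ M, y.Pi μ ∧ 0 < c μ) →
      ω = χ + k • b + M.sum → ∃ j, ω = w j) →
  ∃ g : Bool → FractionRing R, (∀ i, HK 𝒜 0 (w i - χ) (g i)) ∧ (∀ i, ¬ y.Pi (w i) → g i = 0) ∧
    (∀ i, ∃ k : ℕ, Rg y.q (iK z ^ k * g i)) ∧ RgV y.q (v - ∑ i, g i • toVF (E i))

variable [GradedAlgebra 𝒜]

/-- A homogeneous rational function which is regular at a fixed point is regular at each point of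
the cone over it. -/
theorem same_rg (H : H63X.Hyp 𝒜) {y y' : FP 𝒜} (h : SamePoint 𝒜 y.q y'.q) {d : ℤ}
    {m : Fin r → ℤ} {x : FractionRing R} (hx : HK 𝒜 d m x) (hr : Rg y.q x) : Rg y'.q x := by
  obtain ⟨k, _, s, a, hs, _, _, h1, h2⟩ := hx.exists_den H.hX y.nv y.fix hr
  exact ⟨a, s, A04.samePoint_ne h hs (by rw [h1]; exact one_ne_zero), h2⟩

theorem same_rgV (H : H63X.Hyp 𝒜) {y y' : FP 𝒜} (h : SamePoint 𝒜 y.q y'.q) {lam : Fin r → ℤ}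
    {v : VF R} (hv : HV 𝒜 lam v) (hr : RgV y.q v) : RgV y'.q v := by
  intro a
  induction a using DirectSum.Decomposition.inductionOn 𝒜 with
  | zero =>
    rw [iK_zero, map_zero]
    exact Rg.zero
  | @homogeneous i a => exact same_rg H h (hv i.1 i.2 a a.2) (hr a)
  | add a b ha hb =>
    rw [iK_add, map_add]
    exact ha.add hb

omit [IsDomain R] in
theorem same_pi {y y' : FP 𝒜} (h : SamePoint 𝒜 y.q y'.q) : ∀ χ, y.Pi χ → y'.Pi χ := by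
  intro χ h2
  have h3 := A04.same_tw h h2
  rw [A04.samePoint_nu h] at h3
  exact h3

omit [IsDomain R] [GradedAlgebra 𝒜] in
theorem samePoint_trans {p q s : R →ₐ[ℂ] ℂ} (h : SamePoint 𝒜 p q) (h' : SamePoint 𝒜 q s) :
    SamePoint 𝒜 p s := by
  obtain ⟨a, ha, h1⟩ := h
  obtain ⟨b, hb, h2⟩ := h'
  refine ⟨b * a, mul_ne_zero hb ha, fun d m x hx => ?_⟩
  rw [h2 d m x hx, h1 d m x hx, mul_pow, mul_assoc]

omit [IsDomain R] [GradedAlgebra 𝒜] in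
theorem samePoint_refl (p : R →ₐ[ℂ] ℂ) : SamePoint 𝒜 p p :=
  ⟨1, one_ne_zero, fun d m x _ => by rw [one_pow, one_mul]⟩

section
variable {N : ℤ} {n : ℕ} {f : Fin (n + 1) → Fin r → ℤ}
  {β : Fin (n + 1) → Fin (n + 1) → ((Fin r → ℤ) →+ ℤ)} {E F : Fin (n + 1) → Fin (n + 1) → VF R}
  {c : (Fin r → ℤ) →+ ℤ}

omit [IsDomain R] [GradedAlgebra 𝒜] in
theorem idx (hn : 2 ≤ n) : (0 : Fin (n + 1)) ≠ 1 ∧ (0 : Fin (n + 1)) ≠ Fin.last n ∧
    (1 : Fin (n + 1)) ≠ Fin.last n := by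
  have v1 := one_val hn
  have v0 : ((0 : Fin (n + 1)) : ℕ) = 0 := rfl
  have vL : ((Fin.last n : Fin (n + 1)) : ℕ) = n := rfl
  refine ⟨fun h => ?_, fun h => ?_, fun h => ?_⟩ <;> (rw [Fin.ext_iff] at h; omega)

/-- The index of the two fields. -/
def ix (n : ℕ) (i : Bool) : Fin (n + 1) := if i then 1 else 0

omit [GradedAlgebra 𝒜] in
theorem ix_cases (n : ℕ) (i : Bool) : ix n i = 0 ∨ ix n i = 1 := by
  cases i
  · exact Or.inl rfl
  · exact Or.inr rfl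

omit [GradedAlgebra 𝒜] in
theorem ix_ne (hA : AC 𝒜 N n f β E F) (i : Bool) : ix n i ≠ Fin.last n := by
  obtain ⟨n01, n0L, n1L⟩ := idx hA.n2
  rcases ix_cases n i with h | h <;> rw [h]
  · exact n0L
  · exact n1L

omit [GradedAlgebra 𝒜] in
theorem f_ne (hA : AC 𝒜 N n f β E F) (i : Fin (n + 1)) : f i ≠ 0 := by
  have hN := hA.N0
  obtain ⟨n01, n0L, n1L⟩ := idx hA.n2
  intro h0
  have key : ∀ j, j ≠ i → False := fun j hj => by
    have h1 := hA.be i j i hj.symm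
    rw [h0, map_zero, if_pos rfl, if_neg hj.symm] at h1
    omega
  by_cases hi : i = 0
  · exact key 1 (by rw [hi]; exact n01.symm)
  · exact key 0 (fun h => hi h.symm)

/-- (C3) of the base chamber. -/
theorem base_c3 (H : H63X.Hyp 𝒜) (hA : AC 𝒜 N n f β E F) (hv : NoVec 𝒜 n f) (hc : Ch2 𝒜 n f c)
    {z : FP 𝒜} {b b' : Fin r → ℤ} (hb : z.Pi (-b)) (hb' : z.Pi (-b')) (hcb : 0 < c b)
    (hcb' : 0 < c b') (hoth : ∀ ψ, z.Pi ψ → ψ ≠ -b → ψ ≠ -b' → 0 < c ψ) (i : Bool)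
    (hi : ¬ z.Pi (f (ix n i) - f (Fin.last n))) (k k' : ℕ) (M : List (Fin r → ℤ)) (hk : 1 ≤ k)
    (hk' : 1 ≤ k') (hM : ∀ μ ∈ M, z.Pi μ ∧ 0 < c μ) :
    f (ix n i) - f (Fin.last n) ≠ -f (Fin.last n) + k • b + k' • b' + M.sum := by
  intro he
  have hn := hA.n2
  have hN := hA.N0
  obtain ⟨n01, n0L, n1L⟩ := idx hn
  obtain ⟨k, rfl⟩ : ∃ l, k = l + 1 := ⟨k - 1, by omega⟩
  obtain ⟨k', rfl⟩ : ∃ l, k' = l + 1 := ⟨k' - 1, by omega⟩
  have hwb : Wt 𝒜 b := by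
    have := H641.wt_neg H ⟨z, hb⟩
    rwa [neg_neg] at this
  have hwb' : Wt 𝒜 b' := by
    have := H641.wt_neg H ⟨z, hb'⟩
    rwa [neg_neg] at this
  have hs : (b :: b' :: (List.replicate k b ++ (List.replicate k' b' ++ M))).sum =
      f (ix n i) := by
    have h1 : f (ix n i) = (f (ix n i) - f (Fin.last n)) + f (Fin.last n) := by abel
    rw [h1, he]
    simp only [List.sum_cons, List.sum_append, List.sum_replicate, add_smul, one_smul]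
    abel
  have hW : ∀ ω ∈ b :: b' :: (List.replicate k b ++ (List.replicate k' b' ++ M)),
      Wt 𝒜 ω ∧ 0 < c ω := by
    intro ω hω
    simp only [List.mem_cons, List.mem_append] at hω
    rcases hω with rfl | rfl | h | h | h
    · exact ⟨hwb, hcb⟩
    · exact ⟨hwb', hcb'⟩
    · rw [List.eq_of_mem_replicate h]
      exact ⟨hwb, hcb⟩
    · rw [List.eq_of_mem_replicate h]
      exact ⟨hwb', hcb'⟩
    · exact ⟨⟨z, (hM ω h).1⟩, (hM ω h).2⟩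
  -- `{b, b'} = {f 1, f 0 - f 1}` and `i = 0`
  have hcase : ix n i = 0 ∧ ((b = f 1 ∧ b' = f 0 - f 1) ∨ (b = f 0 - f 1 ∧ b' = f 1)) := by
    rcases rel_sum hA hv hc hW (ix_cases n i) hs with h | ⟨h, h1 | h1⟩
    · simp at h
    · refine ⟨h, Or.inl ?_⟩
      simp only [List.cons.injEq] at h1
      exact ⟨h1.1, h1.2.1⟩
    · refine ⟨h, Or.inr ?_⟩
      simp only [List.cons.injEq] at h1
      exact ⟨h1.1, h1.2.1⟩
  obtain ⟨hi0, hcase⟩ := hcase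
  rw [hi0] at hi
  have hp1 : z.Pi (-f 1) := by
    rcases hcase with h | h
    · rw [← h.1]; exact hb
    · rw [← h.2]; exact hb'
  have hoth' : ∀ ψ, z.Pi ψ → c ψ < 0 → ψ = -f 1 ∨ ψ = -(f 0 - f 1) := by
    intro ψ hψ h0
    by_contra hcon
    push Not at hcon
    rcases hcase with ⟨rfl, rfl⟩ | ⟨rfl, rfl⟩
    · have := hoth ψ hψ hcon.1 hcon.2
      omega
    · have := hoth ψ hψ hcon.2 hcon.1
      omega
  have cL : c (f (Fin.last n)) < 0 := hc.neg _ (by rw [Fin.val_last]; exact hn)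
  have c1 := hc.pos
  have c01 := hc.ord 0 1 (by
    have v1 := one_val hn
    have v0 : ((0 : Fin (n + 1)) : ℕ) = 0 := rfl
    rw [Fin.lt_def]; omega)
  have b1L := fun k => hA.be 1 (Fin.last n) k n1L
  have b0L := fun k => hA.be 0 (Fin.last n) k n0L
  -- up along `f 1 - f L`
  have hnv : ¬ z.Pi (-(f 1 - f (Fin.last n))) := by
    intro h
    rcases hoth' _ h (by rw [map_neg, map_sub]; omega) with h1 | h1
    · have h2 := congrArg (β 1 (Fin.last n)) h1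
      rw [map_neg, map_neg, map_sub, b1L, b1L, if_pos rfl, if_neg n1L, if_neg n1L.symm,
        if_pos rfl] at h2
      omega
    · have h2 := congrArg (β 1 (Fin.last n)) h1
      rw [map_neg, map_neg, map_sub, map_sub, b1L, b1L, b1L, if_pos rfl, if_neg n1L,
        if_neg n1L.symm, if_pos rfl, if_neg n01, if_neg n0L] at h2
      omega
  have h1 := root_up H hN (hA.root 1 _ n1L) hnv hp1 (by
    rw [map_neg, b1L, if_pos rfl, if_neg n1L]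
    omega)
  have h2 : -f 1 + (f 1 - f (Fin.last n)) = -f (Fin.last n) := by abel
  rw [h2] at h1
  -- down along `f 0 - f L`
  have h3 := root_down H hN (hA.root 0 _ n0L) hi h1 (by
    rw [map_neg, b0L, if_neg n0L.symm, if_pos rfl]
    omega)
  have h4 : -f (Fin.last n) - (f 0 - f (Fin.last n)) = -f 0 := by abel
  rw [h4] at h3
  rcases hoth' _ h3 (by rw [map_neg]; omega) with h5 | h5
  · have h6 := congrArg (β 0 (Fin.last n)) h5
    rw [map_neg, map_neg, b0L, b0L, if_pos rfl, if_neg n0L, if_neg n01.symm, if_neg n1L] at h6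
    omega
  · have h6 : f 1 = 0 := by
      have h7 : f 0 = f 0 - f 1 := neg_injective h5
      exact sub_eq_self.1 h7.symm
    exact f_ne hA 1 h6

/-- (C2) of the base chamber. -/
theorem base_c2 (H : H63X.Hyp 𝒜) (hA : AC 𝒜 N n f β E F) (hv : NoVec 𝒜 n f) (hc : Ch2 𝒜 n f c)
    {y : FP 𝒜} {b : Fin r → ℤ} (hb : y.Pi (-b)) (hcb : 0 < c b) {ω : Fin r → ℤ} (hω : y.Pi ω)
    {k : ℕ} {M : List (Fin r → ℤ)} (hk : 1 ≤ k) (hM : ∀ μ ∈ M, y.Pi μ ∧ 0 < c μ)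
    (he : ω = -f (Fin.last n) + k • b + M.sum) : ∃ i : Bool, ω = f (ix n i) - f (Fin.last n) := by
  have hwb : Wt 𝒜 b := by
    have := H641.wt_neg H ⟨y, hb⟩
    rwa [neg_neg] at this
  obtain ⟨k, rfl⟩ : ∃ l, k = l + 1 := ⟨k - 1, by omega⟩
  have hW : ∀ ω ∈ b :: (List.replicate k b ++ M), Wt 𝒜 ω ∧ 0 < c ω := by
    intro ω hω
    simp only [List.mem_cons, List.mem_append] at hω
    rcases hω with rfl | h | h
    · exact ⟨hwb, hcb⟩
    · rw [List.eq_of_mem_replicate h]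
      exact ⟨hwb, hcb⟩
    · exact ⟨⟨y, (hM ω h).1⟩, (hM ω h).2⟩
  have hs : ω = -f (Fin.last n) + (b :: (List.replicate k b ++ M)).sum := by
    rw [he]
    simp only [List.sum_cons, List.sum_append, List.sum_replicate, add_smul, one_smul]
    abel
  rcases rel_list hA hv hc hW (by simp) (Or.inr ⟨y, hω⟩) hs with ⟨h, -⟩ | ⟨h, -⟩
  · exact ⟨false, h⟩
  · exact ⟨true, h⟩

end

end Vale.Agent.P280.H475T
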