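import Vale.Agent.P280.H475T.BadB

/-! P280, T7, helper475: the bad end and the base chamber. -/

open DirectSum Vale.Agent.P280.T Vale.Agent.P280.H127

namespace Vale.Agent.P280.H475T

open Vale.Agent.P280.N Vale.Agent.P280.N.H989 Vale.Agent.P280.H143 Vale.Agent.P280.N2

variable {r : ℕ} {R : Type} [CommRing R] [IsDomain R] [Algebra ℂ R]
  {𝒜 : ℕ × (Fin r → ℤ) → Submodule ℂ R} [GradedAlgebra 𝒜]
  {N : ℤ} {n : ℕ} {f : Fin (n + 1) → Fin r → ℤ}
  {β : Fin (n + 1) → Fin (n + 1) → ((Fin r → ℤ) →+ ℤ)} {E F : Fin (n + 1) → Fin (n + 1) → VF R}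
  {c : (Fin r → ℤ) →+ ℤ}

/-- The bad end. -/
theorem bad_end (H : H63X.Hyp 𝒜) (hcrit : CritD 𝒜) (hframe : FrameD 𝒜)
    (hA : AC 𝒜 N n f β E F) (hv : NoVec 𝒜 n f) (hc : Ch2 𝒜 n f c) {p : FP 𝒜} (hp : Pos c p)
    {z : FP 𝒜} (hz : z.Pi (-f 1)) (h1 : H60.One 𝒜 z (-f 1))
    (hoth : ∀ ψ, z.Pi ψ → ψ ≠ -f 1 → 0 < c ψ) (hnv : ¬ z.Pi (f 1 - f (Fin.last n))) :
    Lf 𝒜 z (-f (Fin.last n)) := by
  classical
  have hn := hA.n2
  have hN := hA.N0
  have hNC : (N : ℂ) ≠ 0 := by exact_mod_cast hN.ne'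
  obtain ⟨n01, n0L, n1L⟩ := idx hn
  have cL : c (f (Fin.last n)) < 0 := hc.neg _ (by rw [Fin.val_last]; exact hn)
  have c1 := hc.pos
  have c01 := hc.ord 0 1 (by
    have v1 := one_val hn
    have v0 : ((0 : Fin (n + 1)) : ℕ) = 0 := rfl
    rw [Fin.lt_def]; omega)
  have cix : ∀ i, 0 < c (f (ix n i)) := by
    intro i
    rcases ix_cases n i with h | h <;> rw [h] <;> omega
  have b1L := fun k => hA.be 1 (Fin.last n) k n1L
  have b0L := fun k => hA.be 0 (Fin.last n) k n0L
  have hWl : H749.Wl c z (f 1) := ⟨hz, c1, hoth, h1⟩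
  have hv0 : f 1 - f (Fin.last n) ≠ 0 := H63X.c03_wt_ne_zero H (hA.vx 1 _ n1L).1
  have hnv' : ¬ z.Pi (-(f 1 - f (Fin.last n))) := by
    intro h
    have h2 := hoth _ h (by
      intro h3
      have h4 := congrArg (β 1 (Fin.last n)) h3
      rw [map_neg, map_neg, map_sub, b1L, b1L, if_pos rfl, if_neg n1L, if_neg n1L.symm,
        if_pos rfl] at h4
      omega)
    rw [map_neg, map_sub] at h2
    omega
  -- the fields
  have hder : ∀ i : Bool, ∃ D D' : Derivation ℂ R R, toVF D = E (ix n i) (Fin.last n) ∧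
      toVF D' = F (ix n i) (Fin.last n) ∧ H93.IsHField 𝒜 (f (ix n i) - f (Fin.last n)) D := by
    intro i
    have hr := hA.root (ix n i) _ (ix_ne hA i)
    obtain ⟨D, h2, h3⟩ := hr.globE.exists_hder hr.hvE
    obtain ⟨D', h4⟩ := hr.globF.exists_der
    exact ⟨D, D', h2, h4, h3⟩
  choose D D' hD1 hD2 hD3 using hder
  have hDne : ∀ (y : FP 𝒜) i, y.Pi (f (ix n i) - f (Fin.last n)) → ∃ h, y.q (D i h) ≠ 0 := by
    intro y i hy
    by_contra hcon
    push Not at hcon
    refine (hA.root (ix n i) _ (ix_ne hA i)).atE y hy ?_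
    rw [← hD1]
    intro x
    rw [toVF_iK, LinearMap.zero_apply, ← hcon x]
    exact Val.iK _
  have hinj : Function.Injective fun i : Bool => f (ix n i) - f (Fin.last n) := by
    have h2 : f 0 - f (Fin.last n) ≠ f 1 - f (Fin.last n) := by
      intro h3
      have h4 := congrArg (β 1 (Fin.last n)) h3
      rw [map_sub, map_sub, b1L, b1L, b1L, if_pos rfl, if_neg n01, if_neg n0L] at h4
      omega
    intro i j hij
    cases i <;> cases j
    · rfl
    · exact absurd hij h2
    · exact absurd hij.symm h2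
    · rfl
  intro t ht htw
  -- `t0`
  have hL1 : ¬ z.Pi (-f (Fin.last n) + (f 1 - f (Fin.last n))) := by
    intro h
    have hw : Wt 𝒜 (-f (Fin.last n) + (f 1 - f (Fin.last n))) := ⟨z, h⟩
    have hb : β 1 (Fin.last n) (-f (Fin.last n) + (f 1 - f (Fin.last n))) = 3 * N := by
      rw [map_add, map_neg, map_sub, b1L, b1L, if_pos rfl, if_neg n1L, if_neg n1L.symm,
        if_pos rfl]
      ring
    have hr := hA.root 1 _ n1L
    by_cases e1 : -f (Fin.last n) + (f 1 - f (Fin.last n)) = f 1 - f (Fin.last n)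
    · rw [e1, hr.two] at hb
      omega
    · by_cases e2 : -f (Fin.last n) + (f 1 - f (Fin.last n)) = -(f 1 - f (Fin.last n))
      · rw [e2, map_neg, hr.two] at hb
        omega
      · have h2 := hr.bd _ hw e1 e2
        rw [hb, abs_le] at h2
        omega
  have hL0 : -f (Fin.last n) + (f 1 - f (Fin.last n)) ≠ 0 := by
    intro h
    have h2 := congrArg (β 1 (Fin.last n)) h
    rw [map_add, map_neg, map_sub, map_zero, b1L, b1L, if_pos rfl, if_neg n1L, if_neg n1L.symm,
      if_pos rfl] at h2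
    omega
  obtain ⟨ze, zf, hsl⟩ := sl2_fix H (hA.root 1 _ n1L) hv0 (hD1 true) (hD2 true) z hnv hnv' ht htw
    hL1 hL0
  have hbL : β 1 (Fin.last n) (-f (Fin.last n)) = N := by
    rw [map_neg, b1L, if_neg n1L.symm, if_pos rfl]
    omega
  rw [hbL] at hsl
  obtain ⟨t0, ht0⟩ : ∃ t0 : R →ₗ[ℂ] ℂ, t0 = t.comp (D' true : R →ₗ[ℂ] R) := ⟨_, rfl⟩
  have ht0t : IsTangent z.q t0 := by rw [ht0]; exact tan_comp zf ht
  have ht0w : HasWeight 𝒜 z.ν (-f 1) t0 := by
    have h2 : H93.IsHField 𝒜 (-(f 1 - f (Fin.last n))) (D' true) := by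
      have h3 := (hA.root 1 _ n1L).hvF
      have h4 : toVF (D' true) = F 1 (Fin.last n) := hD2 true
      rw [← h4] at h3
      exact h3.isHField
    have h3 := weight_comp h2 htw
    have e1 : -f (Fin.last n) + -(f 1 - f (Fin.last n)) = -f 1 := by abel
    rw [e1] at h3
    rw [ht0]
    exact h3
  have hsl' : ∀ x, t0 (D true x) = (N : ℂ) * t x := fun x => by
    rw [ht0]
    exact hsl x
  by_cases ht00 : t0 = 0
  · refine ⟨0, fun d m x _ => Submodule.zero_mem _, fun x => ?_⟩
    have h2 := hsl' x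
    rw [ht00, LinearMap.zero_apply] at h2
    rw [Derivation.zero_apply, map_zero]
    exact ((mul_eq_zero.1 h2.symm).resolve_left hNC).symm
  -- the coordinate
  obtain ⟨dz, zc, hzc, hzc0⟩ : ∃ (d : ℕ) (zc : R), zc ∈ 𝒜 (d, d • z.ν + -f 1) ∧ t0 zc ≠ 0 := by
    by_contra hcon
    push Not at hcon
    apply ht00
    apply linearMap_ext_graded 𝒜
    rintro ⟨d, m⟩ h hh
    rw [LinearMap.zero_apply]
    by_contra hne
    have h2 := ht0w d m h hh hne
    rw [h2] at hh
    exact hne (hcon d h hh)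
  have hzq : z.q zc = 0 := by
    by_contra hne
    have h2 := z.fix _ _ _ hzc hne
    exact f_ne hA 1 (neg_eq_zero.1 (add_eq_left.1 h2))
  have hCrd : Crd z (-f 1) dz zc := ⟨hzc, hzq, t0, ht0t, ht0w, hzc0⟩
  have hzc00 : zc ≠ 0 := H749.crd_ne_zero hCrd
  have hKz : iK zc ≠ 0 := iK_ne_zero hzc00
  obtain ⟨g0, hg0, hg1⟩ := exists_deg_one_ne H.hX.gen z.nv z.fix
  have hg0d : g0 ^ dz ∈ 𝒜 (dz, dz • z.ν) := by
    have h2 := SetLike.pow_mem_graded dz hg0
    have e : dz • ((1, z.ν) : ℕ × (Fin r → ℤ)) = (dz, dz • z.ν) := by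
      ext <;> simp
    rwa [e] at h2
  obtain ⟨σ, hσ⟩ : ∃ σ : FractionRing R, σ = (iK zc)⁻¹ * iK (g0 ^ dz) := ⟨_, rfl⟩
  have hσk : HK 𝒜 0 (f 1) σ := by
    rw [hσ]
    exact (((HK.ofR hzc).inv hKz).mul (HK.ofR hg0d)).cast (by ring) (by abel)
  have hzσ : iK zc * σ = iK (g0 ^ dz) := by rw [hσ, mul_inv_cancel_left₀ hKz]
  have hDv : ∀ i, HV 𝒜 (f (ix n i) - f (Fin.last n)) (toVF (D i)) := fun i => hv_toVF (hD3 i)
  have hV1 : HV 𝒜 (-f (Fin.last n)) (σ • toVF (D true)) :=
    (HV.smul hσk (hDv true)).cast (by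
      change f 1 - f (Fin.last n) - f 1 = _
      abel)
  -- the polar part at `z`
  obtain ⟨g, hgk, hg0', hgp, hgr⟩ := hframe c z (f 1) hWl (-f (Fin.last n)) (σ • toVF (D true)) hV1
    dz zc hCrd 1 (by
      rw [pow_one, smul_smul, hzσ]
      exact RgV.smul (Rg.iK _) (toVF_glob _).rgV) (by rw [map_neg]; omega)
    (fun i => f (ix n i) - f (Fin.last n)) hinj D hD3
    (fun i hi => ⟨hDne z i hi, H.mult z _ (hA.vx _ _ (ix_ne hA i)) hi⟩)
    (fun ω hω k M hk hM he => base_c2 H hA hv hc hz c1 hω hk hM he)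
  have hgt : g true = 0 := hg0' true hnv
  have hρ : RgV z.q (σ • toVF (D true) - g false • toVF (D false)) := by
    have h2 := hgr
    rw [Fintype.sum_bool, hgt, zero_smul, zero_add] at h2
    exact h2
  have hgf : HK 𝒜 0 (f 0) (g false) := (hgk false).cast rfl (by
    change f 0 - f (Fin.last n) - -f (Fin.last n) = _
    abel)
  have hzg : HK 𝒜 dz (dz • z.ν + -f 1 + f 0) (iK zc * g false) :=
    ((HK.ofR hzc).mul hgf).cast (by ring) rfl
  have hzgr : Rg z.q (iK zc * g false) := by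
    obtain ⟨k, hk⟩ := hgp false
    refine H749.rg_of_pole H.hX z hCrd h1 hzg (k := k) (by
      have h2 := hk.mul (Rg.iK (q := z.q) zc)
      have e : iK zc ^ k * (iK zc * g false) = iK zc ^ k * g false * iK zc := by ring
      rw [e]
      exact h2) ?_
    intro k' s hk' hs he
    obtain ⟨M, hM, rfl⟩ := AddSubmonoid.exists_list_of_mem_closure hs
    have he' : (f 1 :: f 1 :: (List.replicate (k' - 1) (f 1) ++ M)).sum = f 0 := by
      simp only [List.sum_cons, List.sum_append, List.sum_replicate, ← he]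
      obtain ⟨k', rfl⟩ : ∃ l, k' = l + 1 := ⟨k' - 1, by omega⟩
      rw [Nat.add_sub_cancel, natCast_zsmul, add_smul, one_smul, smul_neg]
      abel
    have hW : ∀ ω ∈ f 1 :: f 1 :: (List.replicate (k' - 1) (f 1) ++ M), Wt 𝒜 ω ∧ 0 < c ω := by
      intro ω hω
      simp only [List.mem_cons, List.mem_append] at hω
      rcases hω with rfl | rfl | h | h
      · exact ⟨hA.wt 1, c1⟩
      · exact ⟨hA.wt 1, c1⟩
      · rw [List.eq_of_mem_replicate h]
        exact ⟨hA.wt 1, c1⟩
      · exact ⟨⟨z, (hM ω h).1⟩, hoth ω (hM ω h).1 (hM ω h).2⟩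
    rcases rel_sum hA hv hc hW (Or.inl rfl) he' with h | ⟨-, h | h⟩
    · simp at h
    · simp only [List.cons.injEq] at h
      exact f1_ne hA h.2.1
    · simp only [List.cons.injEq] at h
      exact f1_ne hA h.1
  obtain ⟨ρ, hρd⟩ : ∃ ρ : VF R, ρ = σ • toVF (D true) - g false • toVF (D false) := ⟨_, rfl⟩
  rw [← hρd] at hρ
  have hρv : HV 𝒜 (-f (Fin.last n)) ρ := by
    rw [hρd]
    exact hV1.sub ((HV.smul hgf (hDv false)).cast (by
      change f 0 - f (Fin.last n) - f 0 = _
      abel))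
  obtain ⟨K, hK⟩ : ∃ K : ℂ, K = z.q g0 ^ dz * N / t0 zc := ⟨_, rfl⟩
  have hK0 : K ≠ 0 := by
    rw [hK]
    exact div_ne_zero (mul_ne_zero (pow_ne_zero _ hg1) hNC) hzc0
  have hval : ∀ h, Val z.q (ρ (iK h)) (K * t h) := by
    intro h
    have h2 := rho_val H z (g0 := g0) (w := -f 1) (dz := dz) (zc := zc) hzq (D := D true)
      (D' := D false) ze hzgr hzg (by
        intro h3
        rw [add_assoc] at h3
        have h4 : -f 1 + f 0 = 0 := add_eq_left.1 (by rw [h3, natCast_zsmul])
        have h5 : f 0 = f 1 := by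
          rw [neg_add_eq_sub, sub_eq_zero] at h4
          exact h4
        rw [h5] at c01
        exact lt_irrefl _ c01) (by
        intro h3
        have h4 : f 0 = 0 := by
          rw [natCast_zsmul] at h3
          exact add_eq_left.1 h3
        exact f_ne hA 0 h4) hρ (fun h => by
        rw [hρd, Derivation.sub_apply, Derivation.smul_apply, Derivation.smul_apply, toVF_iK,
          toVF_iK, smul_eq_mul, smul_eq_mul, ← hzσ]
        ring) ht0t ht0w hzc0 h
    rw [hsl' h] at h2
    have e : K * t h = z.q g0 ^ dz * (N * t h) / t0 zc := by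
      rw [hK]
      ring
    rw [e]
    exact h2
  -- the data
  obtain ⟨G, hG⟩ : ∃ G : Bool → FractionRing R, G = fun i => if i then σ else -g false := ⟨_, rfl⟩
  have hGt : G true = σ := by rw [hG]; rfl
  have hGf : G false = -g false := by rw [hG]; rfl
  have hGk : ∀ i, HK 𝒜 0 (f (ix n i) - f (Fin.last n) - -f (Fin.last n)) (G i) := by
    intro i
    cases i
    · rw [hGf]
      exact (hgk false).neg
    · rw [hGt]
      exact hσk.cast rfl (by
        change f 1 = f 1 - f (Fin.last n) - -f (Fin.last n)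
        abel)
  have hGz : ∀ i, Rg z.q (iK zc * G i) := by
    intro i
    cases i
    · rw [hGf, mul_neg]
      exact hzgr.neg
    · rw [hGt, hzσ]
      exact Rg.iK _
  have hGs : ∑ i, G i • toVF (D i) = ρ := by
    rw [Fintype.sum_bool, hGt, hGf, hρd]
    refine Derivation.ext fun x => ?_
    simp only [Derivation.add_apply, Derivation.sub_apply, Derivation.smul_apply, smul_eq_mul]
    ring
  obtain ⟨x, hxk, hxr, hxg⟩ := hcrit c hc.ne p hp (-f (Fin.last n))
    (fun i => f (ix n i) - f (Fin.last n)) hinj D hD3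
    (fun i => by
      have := cix i
      simp only [map_neg, map_sub]
      omega)
    (fun y i => if SamePoint 𝒜 z.q y.q then G i else 0)
    (fun y b _ i => by
      by_cases hs : SamePoint 𝒜 z.q y.q
      · simp only [if_pos hs]
        exact hGk i
      · simp only [if_neg hs]
        exact HK.zero le_rfl)
    (fun y b hy i d zy hzy => by
      by_cases hs : SamePoint 𝒜 z.q y.q
      · simp only [if_pos hs]
        refine ⟨1, ?_⟩
        rw [pow_one]
        have hs' := A04.samePoint_symm hs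
        have hb : b = f 1 := by
          by_contra hne
          have h2 := hoth _ (same_pi hs' _ hy.pi) (fun h => hne (neg_injective h))
          have h3 := hy.pos
          rw [map_neg] at h2
          omega
        rw [hb] at hzy
        have hzyk : zy ∈ 𝒜 (d, d • y.ν + -f 1) := hzy.1
        have hν := A04.samePoint_nu hs
        have h2 : Rg z.q ((iK zc)⁻¹ * iK zy) :=
          H749.div_crd H.hX z c (fun ψ hψ hne => (hoth ψ hψ hne).le) (by rw [map_neg]; omega) hCrd
            h1 (HK.ofR hzyk) (Rg.iK _) (by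
              rw [map_add, map_nsmul, nsmul_eq_mul, map_neg, hν]
              omega)
        have h3 : Rg z.q (iK zy * G i) := by
          have e : iK zy * G i = ((iK zc)⁻¹ * iK zy) * (iK zc * G i) := by
            field_simp
          rw [e]
          exact h2.mul (hGz i)
        exact same_rg H hs ((HK.ofR hzyk).mul (hGk i)) h3
      · simp only [if_neg hs]
        exact ⟨0, by rw [mul_zero]; exact Rg.zero⟩)
    (fun y b y' _ hyy i => by
      by_cases hs : SamePoint 𝒜 z.q y.q
      · simp only [if_pos hs, if_pos (samePoint_trans hs hyy), sub_self]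
        exact Rg.zero
      · have hs' : ¬ SamePoint 𝒜 z.q y'.q := fun h =>
          hs (samePoint_trans h (A04.samePoint_symm hyy))
        simp only [if_neg hs, if_neg hs', sub_self]
        exact Rg.zero)
    (fun y b _ => by
      by_cases hs : SamePoint 𝒜 z.q y.q
      · simp only [if_pos hs]
        rw [hGs]
        exact same_rgV H hs hρv hρ
      · simp only [if_neg hs]
        rw [Fintype.sum_bool, zero_smul, zero_smul, add_zero]
        exact RgV.zero)
    (fun y b b' h2 h3 h4 h5 h6 i => by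
      by_cases hi : y.Pi (f (ix n i) - f (Fin.last n))
      · exact Or.inl (hDne y i hi)
      · exact Or.inr fun k k' M hk hk' hM =>
          base_c3 H hA hv hc h2 h3 h4 h5 h6 i hi k k' M hk hk' hM)
  -- the value at `z`
  have hxz : ∀ i, Val z.q (x i - G i) 0 := by
    intro i
    have h2 := hxr z (f 1) hWl i
    simp only [if_pos (samePoint_refl z.q)] at h2
    refine val_zero z ((hxk i).sub (hGk i)) h2 ?_
    rw [zero_smul]
    intro h3
    have h4 : f (ix n i) = 0 := by
      have e : f (ix n i) - f (Fin.last n) - -f (Fin.last n) = f (ix n i) := by abel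
      rw [← e]
      exact h3
    exact f_ne hA _ h4
  have hBv : HV 𝒜 (-f (Fin.last n)) (∑ i, x i • toVF (D i)) :=
    HV.sum _ fun i _ => (HV.smul (hxk i) (hDv i)).cast (by abel)
  obtain ⟨B, hB1, hB2⟩ := hxg.exists_hder hBv
  have hBval : ∀ h, z.q (B h) = K * t h := by
    intro h
    have h2 : (toVF B) (iK h) = ρ (iK h) + ∑ i, (x i - G i) * iK (D i h) := by
      rw [hB1, ← hGs, Fintype.sum_bool, Fintype.sum_bool, Fintype.sum_bool]
      simp only [Derivation.add_apply, Derivation.smul_apply, smul_eq_mul, toVF_iK]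
      ring
    rw [toVF_iK] at h2
    have h3 : Val z.q (∑ i, (x i - G i) * iK (D i h)) (∑ i : Bool, 0 * z.q (D i h)) :=
      Val.sum _ fun i _ => (hxz i).mul (Val.iK _)
    have h4 := (hval h).add h3
    rw [← h2] at h4
    have h5 := (Val.iK (q := z.q) (B h)).unique h4
    rw [h5]
    simp
  refine ⟨K⁻¹ • B, fun d m h hh => Submodule.smul_mem _ _ (hB2 d m h hh), fun h => ?_⟩
  rw [Derivation.smul_apply, map_smul, smul_eq_mul, hBval, inv_mul_cancel_left₀ hK0]

end Vale.Agent.P280.H475T
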