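import Vale.Agent.P280.H475T.BadB

/-! P280, T7, helper475: the base chamber. -/

open DirectSum Vale.Agent.P280.T Vale.Agent.P280.H127

namespace Vale.Agent.P280.H475T

open Vale.Agent.P280.N Vale.Agent.P280.N.H989 Vale.Agent.P280.H143 Vale.Agent.P280.N2

variable {r : ℕ} {R : Type} [CommRing R] [IsDomain R] [Algebra ℂ R]
  {𝒜 : ℕ × (Fin r → ℤ) → Submodule ℂ R} [GradedAlgebra 𝒜]
  {N : ℤ} {n : ℕ} {f : Fin (n + 1) → Fin r → ℤ}
  {β : Fin (n + 1) → Fin (n + 1) → ((Fin r → ℤ) →+ ℤ)} {E F : Fin (n + 1) → Fin (n + 1) → VF R}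
  {c : (Fin r → ℤ) →+ ℤ}

/-- The base chamber: `-f L` is liftable at the source of `Ch2`. -/
theorem base (H : H63X.Hyp 𝒜) (hcrit : Crit 𝒜) (hA : AC 𝒜 N n f β E F) (hv : NoVec 𝒜 n f)
    (hc : Ch2 𝒜 n f c) {p : FP 𝒜} (hp : Pos c p) : Lf 𝒜 p (-f (Fin.last n)) := by
  have hn := hA.n2
  have hN := hA.N0
  obtain ⟨n01, n0L, n1L⟩ := idx hn
  have c1 := hc.pos
  have c01 := hc.ord 0 1 (by
    have v1 := one_val hn
    have v0 : ((0 : Fin (n + 1)) : ℕ) = 0 := rfl
    rw [Fin.lt_def]; omega)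
  have hne : f 0 - f (Fin.last n) ≠ f 1 - f (Fin.last n) := by
    intro h3
    have h4 := congrArg c h3
    rw [map_sub, map_sub] at h4
    omega
  refine hcrit c hc.ne p hp (-f (Fin.last n)) 2
    (fun j => f (ix n (finTwoEquiv j)) - f (Fin.last n)) ?_ ?_ ?_ ?_ ?_
  · intro i j hij
    apply finTwoEquiv.injective
    have hij' : f (ix n (finTwoEquiv i)) - f (Fin.last n) =
      f (ix n (finTwoEquiv j)) - f (Fin.last n) := hij
    generalize finTwoEquiv i = a at hij' ⊢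
    generalize finTwoEquiv j = b at hij' ⊢
    cases a <;> cases b
    · rfl
    · exact absurd hij' hne
    · exact absurd hij'.symm hne
    · rfl
  · exact fun j => hA.vx _ _ (ix_ne hA _)
  · intro j
    simp only [map_neg, map_sub]
    rcases ix_cases n (finTwoEquiv j) with h | h <;> rw [h] <;> omega
  · intro y b hb hcb _ ω hω k M hk hM he
    obtain ⟨i, hi⟩ := base_c2 H hA hv hc hb hcb hω hk hM he
    exact ⟨finTwoEquiv.symm i, by rw [Equiv.apply_symm_apply]; exact hi⟩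
  · intro z d0 d1 h0 h1 h2 h3 h4 j hj k0 k1 M hk0 hk1 hM
    exact base_c3 H hA hv hc h0 h1 h2 h3 h4 _ hj k0 k1 M hk0 hk1 hM

end Vale.Agent.P280.H475T
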