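import Vale.Agent.P280.H475T.Face

/-! P280, T7, helper475, (Bd1): the centre of a face is liftable at the source. -/

open DirectSum Vale.Agent.P280.T Vale.Agent.P280.H127

namespace Vale.Agent.P280.H475T

open Vale.Agent.P280.N Vale.Agent.P280.H143

variable {r : ℕ}

theorem list_le {f : (Fin r → ℤ) →+ ℤ} {M : List (Fin r → ℤ)} (h : ∀ μ ∈ M, 0 ≤ f μ) :
    0 ≤ f M.sum ∧ ∀ μ ∈ M, f μ ≤ f M.sum := by
  induction M with
  | nil => simp
  | cons a M ih =>
    have h1 := ih fun μ hμ => h μ (List.mem_cons_of_mem _ hμ)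
    have h2 := h a List.mem_cons_self
    rw [List.sum_cons, map_add]
    refine ⟨by omega, fun μ hμ => ?_⟩
    rcases List.mem_cons.1 hμ with rfl | h3
    · omega
    · have := h1.2 μ h3
      omega

theorem list_dvd {f : (Fin r → ℤ) →+ ℤ} {K : ℤ} {M : List (Fin r → ℤ)} (h : ∀ μ ∈ M, K ∣ f μ) :
    K ∣ f M.sum := by
  induction M with
  | nil => simp
  | cons a M ih =>
    rw [List.sum_cons, map_add]
    exact dvd_add (h a List.mem_cons_self) (ih fun μ hμ => h μ (List.mem_cons_of_mem _ hμ))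

variable {R : Type} [CommRing R] [IsDomain R] [Algebra ℂ R]
  {𝒜 : ℕ × (Fin r → ℤ) → Submodule ℂ R} [GradedAlgebra 𝒜]
  {N : ℤ} {lam : Fin r → ℤ} {m : ℕ} {e : Fin m → Fin r → ℤ} {L0 : (Fin r → ℤ) →+ ℤ}
  {β : Fin m → Bool → ((Fin r → ℤ) →+ ℤ)} {E F : Fin m → Bool → VF R}

omit [GradedAlgebra 𝒜] in
/-- The parity functional. -/
theorem FaceX.phi (hF : FaceX 𝒜 N lam m e L0 β E F) (a : Fin m) :
    (∑ i, β i true) (e a) = N := by
  rw [AddMonoidHom.finsetSum_apply]
  simp only [hF.bt]
  rw [Finset.sum_ite_eq, if_pos (Finset.mem_univ _)]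

omit [GradedAlgebra 𝒜] in
theorem FaceX.phi_dvd (hF : FaceX 𝒜 N lam m e L0 β E F) (a b : Fin m) (s s' : Bool) :
    2 * N ∣ (∑ i, β i true) (sg s • e a + sg s' • e b) := by
  rw [map_add, map_zsmul, map_zsmul, hF.phi, hF.phi]
  cases s <;> cases s' <;> simp only [sg_true, sg_false, smul_eq_mul]
  · exact ⟨-1, by ring⟩
  · exact ⟨0, by ring⟩
  · exact ⟨0, by ring⟩
  · exact ⟨1, by ring⟩

/-- (Bd1), with all `c (e j)` positive. -/
theorem FaceX.bd1 (H : H63X.Hyp 𝒜) (hcrit : Crit 𝒜) (hF : FaceX 𝒜 N lam m e L0 β E F)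
    {c : (Fin r → ℤ) →+ ℤ} (hc : ∀ μ, Wt 𝒜 μ → c μ ≠ 0) (hcL : ∀ μ, Wt 𝒜 μ → 0 < L0 μ → 0 < c μ)
    (hce : ∀ j, 0 < c (e j)) {p : FP 𝒜} (hp : Pos c p) : Lf 𝒜 p lam := by
  have hN := hF.N0
  have hL : ∀ μ, Wt 𝒜 μ → 0 < c μ → 0 ≤ L0 μ := by
    intro μ hμ h
    by_contra hn
    push Not at hn
    have h1 := hcL (-μ) (H641.wt_neg H hμ) (by rw [map_neg]; omega)
    rw [map_neg] at h1
    omega
  have hL' : ∀ μ, Wt 𝒜 (-μ) → 0 < c μ → 0 ≤ L0 μ := fun μ hμ h =>
    hL μ (by simpa using H641.wt_neg H hμ) h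
  have hM : ∀ (y : FP 𝒜) (M : List (Fin r → ℤ)), (∀ μ ∈ M, y.Pi μ ∧ 0 < c μ) →
      ∀ μ ∈ M, 0 ≤ L0 μ := fun y M h μ hμ => hL μ ⟨y, (h μ hμ).1⟩ (h μ hμ).2
  refine hcrit c hc p hp lam m (fun j => lam + e j) ?_ ?_ ?_ ?_ ?_
  · intro i j hij
    by_contra hne
    have h1 : e i = e j := add_left_cancel hij
    have h2 := hF.bt j i
    rw [h1, hF.bt, if_pos rfl, if_neg hne] at h2
    omega
  · intro j
    have := hF.vt j true
    rwa [vx_true] at this
  · intro j
    have := hce j
    simp only [map_add]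
    omega
  · -- (C2)
    intro y b hb hcb hy ω hω k M hk hM' heq
    have h1 := hL' b ⟨y, hb⟩ hcb
    have h2 := (list_le (hM y M hM')).1
    have h3 := (list_le (f := c) fun μ hμ => (hM' μ hμ).2.le).1
    have h4 := hF.max ω ⟨y, hω⟩
    have h5 : L0 ω = L0 lam + k * L0 b + L0 M.sum := by
      rw [heq, map_add, map_add, map_nsmul, nsmul_eq_mul]
    have h6 : c ω = c lam + k * c b + c M.sum := by
      rw [heq, map_add, map_add, map_nsmul, nsmul_eq_mul]
    have hk' : (1 : ℤ) ≤ k := by exact_mod_cast hk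
    have h7 : 0 ≤ (k : ℤ) * L0 b := mul_nonneg (by omega) h1
    have h8 : 0 < (k : ℤ) * c b := mul_pos (by omega) hcb
    rcases hF.top ω ⟨y, hω⟩ (by omega) with h9 | ⟨j, s, h9⟩
    · rw [h9] at h6
      omega
    · cases s
      · rw [vx_false] at h9
        rw [h9, map_sub] at h6
        have := hce j
        omega
      · rw [vx_true] at h9
        exact ⟨j, h9⟩
  · -- (C3)
    intro z d0 d1 hd0 hd1 hc0 hc1 hz j hj k0 k1 M hk0 hk1 hM' heq
    have heq' : e j = k0 • d0 + k1 • d1 + M.sum := by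
      have : lam + e j = lam + (k0 • d0 + k1 • d1 + M.sum) := by
        rw [heq]
        abel
      exact add_left_cancel this
    have hk0' : (1 : ℤ) ≤ k0 := by exact_mod_cast hk0
    have hk1' : (1 : ℤ) ≤ k1 := by exact_mod_cast hk1
    have a0 := hL' d0 ⟨z, hd0⟩ hc0
    have a1 := hL' d1 ⟨z, hd1⟩ hc1
    have a2 := list_le (hM z M hM')
    have a3 := list_le (f := c) fun μ hμ => (hM' μ hμ).2.le
    have e1 : L0 (e j) = k0 * L0 d0 + k1 * L0 d1 + L0 M.sum := by
      rw [heq', map_add, map_add, map_nsmul, map_nsmul, nsmul_eq_mul, nsmul_eq_mul]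
    have e2 : c (e j) = k0 * c d0 + k1 * c d1 + c M.sum := by
      rw [heq', map_add, map_add, map_nsmul, map_nsmul, nsmul_eq_mul, nsmul_eq_mul]
    rw [hF.lze] at e1
    have b0 : L0 d0 ≤ k0 * L0 d0 := by nlinarith
    have b1 : L0 d1 ≤ k1 * L0 d1 := by nlinarith
    have b2 : c d0 ≤ k0 * c d0 := by nlinarith
    have b3 : c d1 ≤ k1 * c d1 := by nlinarith
    have l0 : L0 d0 = 0 := by omega
    have l1 : L0 d1 = 0 := by omega
    have lM : ∀ μ ∈ M, L0 μ = 0 := by
      intro μ hμ
      have := a2.2 μ hμ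
      have := hM z M hM' μ hμ
      omega
    -- the negative weights are smaller than `e j`
    have star : ∀ ψ, z.Pi ψ → c ψ < 0 → -c (e j) < c ψ := by
      intro ψ hψ h0
      by_cases h1 : ψ = -d0
      · rw [h1, map_neg]
        omega
      · by_cases h2 : ψ = -d1
        · rw [h2, map_neg]
          omega
        · exact absurd (hz ψ hψ h1 h2) (by omega)
    have posL : ∀ ψ, z.Pi ψ → 0 ≤ L0 ψ := by
      intro ψ hψ
      by_cases h1 : ψ = -d0
      · rw [h1, map_neg, l0, neg_zero]
      · by_cases h2 : ψ = -d1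
        · rw [h2, map_neg, l1, neg_zero]
        · exact hL ψ ⟨z, hψ⟩ (hz ψ hψ h1 h2)
    have hpos := hF.pos
    have nv : ∀ i s, ¬ z.Pi (-vx lam e i s) := by
      intro i s h
      have := posL _ h
      rw [map_neg, hF.lv] at this
      omega
    have nl : ¬ z.Pi (-lam) := by
      intro h
      have := posL _ h
      rw [map_neg] at this
      omega
    have hcej := hce j
    -- (A)
    have nlam : ¬ z.Pi lam := by
      intro h
      have h1 := hF.dt H hj h (by rw [hF.bl]; exact hN)
      have h2 : lam - (lam + e j) = -e j := by abel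
      rw [h2] at h1
      have h3 := star _ h1 (by rw [map_neg]; omega)
      rw [map_neg] at h3
      omega
    -- (B)
    have f1 : ∀ i, i ≠ j → ¬ z.Pi (-e i - e j) := by
      intro i hi h
      have := hce i
      have h3 := star _ h (by rw [map_sub, map_neg]; omega)
      rw [map_sub, map_neg] at h3
      omega
    have f2 : ∀ i, i ≠ j → ¬ z.Pi (lam - e i) := by
      intro i hi h
      have h1 := hF.dt H hj h (by
        rw [map_sub, hF.bl, hF.bt, if_neg hi, sub_zero]
        exact hN)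
      have h2 : lam - e i - (lam + e j) = -e i - e j := by abel
      rw [h2] at h1
      exact f1 i hi h1
    have f3 : ∀ i, ¬ z.Pi (e i) ∨ i = j := by
      intro i
      by_cases hi : i = j
      · exact Or.inr hi
      left
      intro h
      have h0 := nv i false
      rw [vx_false] at h0
      have h1 := hF.uf H h0 h (by rw [hF.bf, if_pos rfl]; omega)
      have h2 : e i + (lam - e i) = lam := by abel
      rw [h2] at h1
      exact nlam h1
    have f4 : ∀ i, i ≠ j → ¬ z.Pi (-e i) := by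
      intro i hi h
      have h1 := hF.df H (f2 i hi) h (by rw [map_neg, hF.bf, if_pos rfl]; omega)
      have h2 : -e i - (lam - e i) = -lam := by abel
      rw [h2] at h1
      exact nl h1
    have f5 : ¬ z.Pi (-e j) := by
      intro h
      have h0 := nv j true
      rw [vx_true] at h0
      have h1 := hF.ut H h0 h (by rw [map_neg, hF.bt, if_pos rfl]; omega)
      have h2 : -e j + (lam + e j) = lam := by abel
      rw [h2] at h1
      exact nlam h1
    -- all the letters are sums of two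
    have key : ∀ μ, z.Pi μ → L0 μ = 0 → c μ < c (e j) → 2 * N ∣ (∑ i, β i true) μ := by
      intro μ hμ h0 hlt
      rcases hF.S μ ⟨z, hμ⟩ h0 with ⟨i, s, h⟩ | ⟨a, b, s, s', -, h⟩
      · exfalso
        by_cases hi : i = j
        · subst hi
          cases s
          · rw [sg_false, neg_one_smul] at h
            rw [h] at hμ
            exact f5 hμ
          · rw [sg_true, one_smul] at h
            rw [h] at hlt
            exact lt_irrefl _ hlt
        · cases s
          · rw [sg_false, neg_one_smul] at h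
            rw [h] at hμ
            exact f4 i hi hμ
          · rw [sg_true, one_smul] at h
            rw [h] at hμ
            exact (f3 i).elim (fun h' => h' hμ) hi
      · rw [h]
        exact hF.phi_dvd a b s s'
    have k0' : 2 * N ∣ (∑ i, β i true) d0 := by
      have := key _ hd0 (by rw [map_neg, l0, neg_zero]) (by rw [map_neg]; omega)
      rw [map_neg] at this
      exact (dvd_neg.1 this)
    have k1' : 2 * N ∣ (∑ i, β i true) d1 := by
      have := key _ hd1 (by rw [map_neg, l1, neg_zero]) (by rw [map_neg]; omega)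
      rw [map_neg] at this
      exact (dvd_neg.1 this)
    have kM : 2 * N ∣ (∑ i, β i true) M.sum := list_dvd fun μ hμ =>
      key μ (hM' μ hμ).1 (lM μ hμ) (by
        have := a3.2 μ hμ
        omega)
    have hfin : 2 * N ∣ (∑ i, β i true) (e j) := by
      rw [heq', map_add, map_add, map_nsmul, map_nsmul, nsmul_eq_mul, nsmul_eq_mul]
      exact dvd_add (dvd_add (Dvd.dvd.mul_left k0' _) (Dvd.dvd.mul_left k1' _)) kM
    rw [hF.phi] at hfin
    have := Int.le_of_dvd hN hfin
    omega

end Vale.Agent.P280.H475T
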