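import Vale.Agent.P280.H475T.Bd1

/-! P280, T7, helper475, (Bd2): the centre of a face is liftable at all fixed points. -/

open DirectSum Vale.Agent.P280.T Vale.Agent.P280.H127

namespace Vale.Agent.P280.H475T

open Vale.Agent.P280.N Vale.Agent.P280.H143

variable {r : ℕ} {R : Type} [CommRing R] [IsDomain R] [Algebra ℂ R]
  {𝒜 : ℕ × (Fin r → ℤ) → Submodule ℂ R} [GradedAlgebra 𝒜]
  {N : ℤ} {lam : Fin r → ℤ} {m : ℕ} {e : Fin m → Fin r → ℤ} {L0 : (Fin r → ℤ) →+ ℤ}
  {β : Fin m → Bool → ((Fin r → ℤ) →+ ℤ)} {E F : Fin m → Bool → VF R}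

/-- (Bd1) for all signs. -/
theorem FaceX.bd1' (H : H63X.Hyp 𝒜) (hcrit : Crit 𝒜) (hF : FaceX 𝒜 N lam m e L0 β E F)
    {c : (Fin r → ℤ) →+ ℤ} (hc : ∀ μ, Wt 𝒜 μ → c μ ≠ 0) (hcL : ∀ μ, Wt 𝒜 μ → 0 < L0 μ → 0 < c μ)
    {p : FP 𝒜} (hp : Pos c p) : Lf 𝒜 p lam := by
  refine (hF.flip fun j => decide (0 < c (e j))).bd1 H hcrit hc hcL (fun j => ?_) hp
  have h := hc _ (hF.we H j)
  simp only [map_zsmul, smul_eq_mul]
  by_cases h0 : 0 < c (e j)
  · rw [decide_eq_true h0, sg_true]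
    omega
  · rw [decide_eq_false h0, sg_false]
    omega

omit [GradedAlgebra 𝒜] in
/-- The functional with prescribed values at the `e i`. -/
theorem FaceX.gval (hF : FaceX 𝒜 N lam m e L0 β E F) (M : Fin m → ℤ) (a : Fin m) :
    (∑ i, M i • β i true) (e a) = M a * N := by
  rw [AddMonoidHom.finsetSum_apply]
  have : ∀ i ∈ Finset.univ, (M i • β i true) (e a) = if a = i then M i * N else 0 := by
    intro i _
    change M i • (β i true) (e a) = _
    rw [hF.bt, smul_eq_mul, mul_ite, mul_zero]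
  rw [Finset.sum_congr rfl this, Finset.sum_ite_eq, if_pos (Finset.mem_univ _)]

/-- Functionals in general position, dominated by `L0`, with prescribed ratios at the `e i`. -/
theorem FaceX.exists_c (H : H63X.Hyp 𝒜) (hF : FaceX 𝒜 N lam m e L0 β E F) (M : Fin m → ℤ)
    (h0 : ∀ i, M i ≠ 0) (h1 : ∀ a b, a ≠ b → M a + M b ≠ 0 ∧ M a - M b ≠ 0) :
    ∃ c : (Fin r → ℤ) →+ ℤ, (∀ μ, Wt 𝒜 μ → c μ ≠ 0) ∧ (∀ μ, Wt 𝒜 μ → 0 < L0 μ → 0 < c μ) ∧
      ∀ a, c (e a) = M a * N := by
  have hN := hF.N0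
  obtain ⟨c, -, hc2, hc3⟩ := H63X.D01.exists_combo H L0 (∑ i, M i • β i true)
  have he : ∀ a, c (e a) = M a * N := by
    intro a
    have h2 := hc2 (e a) 0 (by rw [hF.lze, map_zero])
    rwa [map_zero, sub_zero, map_zero, sub_zero, hF.gval] at h2
  refine ⟨c, ?_, hc3, he⟩
  intro μ hμ
  rcases lt_trichotomy (L0 μ) 0 with h | h | h
  · have h2 := hc3 (-μ) (H641.wt_neg H hμ) (by rw [map_neg]; omega)
    rw [map_neg] at h2
    omega
  · rcases hF.S μ hμ h with ⟨j, s, h2⟩ | ⟨a, b, s, s', hab, h2⟩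
    · rw [h2, map_zsmul, he, smul_eq_mul]
      exact mul_ne_zero (sg_ne_zero s) (mul_ne_zero (h0 j) hN.ne')
    · rw [h2, map_add, map_zsmul, map_zsmul, he, he, smul_eq_mul, smul_eq_mul]
      obtain ⟨h3, h4⟩ := h1 a b hab
      have h5 : sg s * (M a * N) + sg s' * (M b * N) = (sg s * M a + sg s' * M b) * N := by ring
      rw [h5]
      refine mul_ne_zero ?_ hN.ne'
      cases s <;> cases s' <;> simp only [sg_true, sg_false] <;> omega
  · exact (hc3 μ hμ h).ne'

omit [GradedAlgebra 𝒜] in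
/-- `lam + k μ` is not a weight for `μ = ± e a ± e b`. -/
theorem FaceX.no_wt (hF : FaceX 𝒜 N lam m e L0 β E F) {a b : Fin m} (hab : a ≠ b) (s s' : Bool)
    {k : ℕ} (hk : 1 ≤ k) : ¬ Wt 𝒜 (lam + k • (sg s • e a + sg s' • e b)) := by
  intro hw
  have hN := hF.N0
  have hk' : (1 : ℤ) ≤ k := by exact_mod_cast hk
  have hL : L0 (lam + k • (sg s • e a + sg s' • e b)) = L0 lam := by
    rw [map_add, map_nsmul, map_add, map_zsmul, map_zsmul, hF.lze, hF.lze, smul_zero, smul_zero,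
      add_zero, smul_zero, add_zero]
  have va : β a true (lam + k • (sg s • e a + sg s' • e b)) = N + k * (sg s * N) := by
    rw [map_add, map_nsmul, map_add, map_zsmul, map_zsmul, hF.bl, hF.bt, hF.bt, if_pos rfl,
      if_neg hab.symm, smul_zero, add_zero, nsmul_eq_mul, smul_eq_mul]
  have vb : β b true (lam + k • (sg s • e a + sg s' • e b)) = N + k * (sg s' * N) := by
    rw [map_add, map_nsmul, map_add, map_zsmul, map_zsmul, hF.bl, hF.bt, hF.bt, if_pos rfl,
      if_neg hab, smul_zero, zero_add, nsmul_eq_mul, smul_eq_mul]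
  have hne : ∀ t : Bool, (k : ℤ) * (sg t * N) ≠ 0 := fun t =>
    mul_ne_zero (by omega) (mul_ne_zero (sg_ne_zero t) hN.ne')
  rcases hF.top _ hw hL with h | ⟨i, t, h⟩
  · rw [h, hF.bl] at va
    have := hne s
    omega
  · rw [h, vx, map_add, map_zsmul, hF.bl, hF.bt] at va vb
    by_cases hia : i = a
    · rw [if_neg (fun h' => hab (hia.symm.trans h')), smul_zero] at vb
      have := hne s'
      omega
    · rw [if_neg hia, smul_zero] at va
      have := hne s
      omega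

omit [GradedAlgebra 𝒜] in
/-- `lam + k e j` is not a weight for `k ≥ 2`. -/
theorem FaceX.no_wt2 (hF : FaceX 𝒜 N lam m e L0 β E F) (j : Fin m) {k : ℕ} (hk : 2 ≤ k) :
    ¬ Wt 𝒜 (lam + k • e j) := by
  intro hw
  have hN := hF.N0
  have hk' : (2 : ℤ) ≤ k := by exact_mod_cast hk
  have hL : L0 (lam + k • e j) = L0 lam := by
    rw [map_add, map_nsmul, hF.lze, smul_zero, add_zero]
  have va : β j true (lam + k • e j) = N + k * N := by
    rw [map_add, map_nsmul, hF.bl, hF.bt, if_pos rfl, nsmul_eq_mul]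
  have h2 : 2 * N ≤ k * N := by nlinarith
  rcases hF.top _ hw hL with h | ⟨i, t, h⟩
  · rw [h, hF.bl] at va
    omega
  · rw [h, vx, map_add, map_zsmul, hF.bl, hF.bt] at va
    by_cases hi : i = j
    · rw [if_pos hi] at va
      cases t
      · rw [sg_false, neg_one_smul] at va
        omega
      · rw [sg_true, one_smul] at va
        omega
    · rw [if_neg hi, smul_zero] at va
      omega

end Vale.Agent.P280.H475T
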