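import Vale.Agent.P280.H475T.Face
import Vale.Agent.P280.H63X.C03

/-! P280, T7, helper475, (Bd2): one step of the transport; induction along the curves. -/

open DirectSum Vale.Agent.P280.T Vale.Agent.P280.H127

namespace Vale.Agent.P280.H475T

open Vale.Agent.P280.N Vale.Agent.P280.H490 Vale.Agent.P280.H143

variable {r : ℕ} {R : Type} [CommRing R] [IsDomain R] [Algebra ℂ R]
  {𝒜 : ℕ × (Fin r → ℤ) → Submodule ℂ R} [GradedAlgebra 𝒜]

omit [IsDomain R] in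
/-- Induction along the curves. -/
theorem fp_induct (H : H63X.Hyp 𝒜) (c : (Fin r → ℤ) →+ ℤ) {P : FP 𝒜 → Prop}
    (hstep : ∀ z : FP 𝒜, (∀ (ψ : Fin r → ℤ) (y : FP 𝒜) (n : ℕ) (φ : R →ₐ[ℂ] Polynomial ℂ),
      Curve y z (-ψ) n φ → c ψ < 0 → P y) → P z) (z : FP 𝒜) : P z := by
  obtain ⟨B, hB⟩ := ((finite_weights H.hX).image c).bddBelow
  have hB' : ∀ ν ∈ H587.wts 𝒜, B ≤ c ν := fun ν hν => hB ⟨ν, hν, rfl⟩
  have key : ∀ (n : ℕ) (z : FP 𝒜), z.ν ∈ H587.wts 𝒜 → (c z.ν - B).toNat = n → P z := by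
    intro n
    induction n using Nat.strong_induction_on with
    | _ n ih =>
      intro z hz hn
      refine hstep z fun ψ y k φ hφ hψ => ?_
      have hy := (H587.tangentWeight_mem H.hX y.nv y.fix hφ.ya).1
      have h1 := hB' _ hy
      have h2 := hB' _ hz
      have h3 : c z.ν = c y.ν - k * c ψ := by
        rw [hφ.nu, map_add, map_nsmul, map_neg, nsmul_eq_mul]
        ring
      have h4 : (1 : ℤ) ≤ k := by exact_mod_cast hφ.n1
      have h5 : (k : ℤ) * c ψ < 0 := mul_neg_of_pos_of_neg (by omega) hψ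
      exact ih _ (by omega) y hy rfl
  exact hstep z fun ψ y k φ hφ _ =>
    key _ y (H587.tangentWeight_mem H.hX y.nv y.fix hφ.ya).1 rfl

/-- The field of a vertex. -/
theorem vx_der (H : H63X.Hyp 𝒜) {χ : Fin r → ℤ} (hχ : Vx 𝒜 χ) :
    ∃ D : Derivation ℂ R R, H93.IsHField 𝒜 χ D ∧ (∀ y : FP 𝒜, y.Pi χ → ∃ x, y.q (D x) ≠ 0) ∧
      ∀ y : FP 𝒜, y.Pi χ → ∀ t : R →ₗ[ℂ] ℂ, IsTangent y.q t → HasWeight 𝒜 y.ν χ t →
        ∃ b : ℂ, ∀ x, t x = b * y.q (D x) := by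
  obtain ⟨E, h1, h2, -, h4, -⟩ := H63X.c03_exists H hχ
  obtain ⟨D, rfl, h5⟩ := h1.exists_hder h2
  have h6 : ∀ y : FP 𝒜, y.Pi χ → ∃ x, y.q (D x) ≠ 0 := by
    intro y hy
    by_contra hcon
    push Not at hcon
    refine h4 y hy fun x => ?_
    rw [toVF_iK, LinearMap.zero_apply, ← hcon x]
    exact Val.iK _
  refine ⟨D, h5, h6, fun y hy t ht htw => ?_⟩
  obtain ⟨c, c', h7, h8⟩ := H.mult y χ hχ hy t (y.q.toLinearMap.comp (D : R →ₗ[ℂ] R)) ht htw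
    (H224.isTangent_value y.q D) (H224.hasWeight_value y.fix h5)
  obtain ⟨x, hx⟩ := h6 y hy
  have hc : c ≠ 0 := by
    rintro rfl
    have hc' : c' ≠ 0 := h7.resolve_left fun h => h rfl
    have h9 := h8 x
    rw [zero_mul, zero_add] at h9
    exact hx ((mul_eq_zero.1 h9).resolve_left hc')
  refine ⟨-(c' / c), fun x => ?_⟩
  have h9 : c * t x + c' * y.q (D x) = 0 := h8 x
  field_simp
  linear_combination h9

/-- Vertices are liftable. -/
theorem lf_vx (H : H63X.Hyp 𝒜) {χ : Fin r → ℤ} (hχ : Vx 𝒜 χ) (y : FP 𝒜) : Lf 𝒜 y χ := by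
  intro t ht htw
  by_cases hy : y.Pi χ
  · obtain ⟨D, h1, -, h3⟩ := vx_der H hχ
    obtain ⟨b, hb⟩ := h3 y hy t ht htw
    refine ⟨b • D, fun d m x hx => Submodule.smul_mem _ _ (h1 d m x hx), fun x => ?_⟩
    rw [Derivation.smul_apply, map_smul, smul_eq_mul, hb x]
  · refine ⟨0, fun d m x _ => Submodule.zero_mem _, fun x => ?_⟩
    rw [Derivation.zero_apply, map_zero]
    by_contra hne
    exact hy (tangentWeight_of_ne y.fix (H63X.c03_wt_ne_zero H hχ.1) ht htw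
      (fun h0 => hne (by rw [h0]; rfl)))

/-- One step, without defect. -/
theorem lf_step (H : H63X.Hyp 𝒜) {y z : FP 𝒜} {ψ χ : Fin r → ℤ} {n : ℕ}
    {φ : R →ₐ[ℂ] Polynomial ℂ} (hφ : Curve y z (-ψ) n φ) (hχ : ∀ k : ℕ, χ + k • (-ψ) ≠ 0)
    (h1 : Wt 𝒜 (χ - ψ) → Vx 𝒜 (χ - ψ) ∧ z.Pi (χ - ψ))
    (h2 : ∀ k : ℕ, 2 ≤ k → ¬ Wt 𝒜 (χ + k • (-ψ))) (hy : Lf 𝒜 y χ) : Lf 𝒜 z χ := by
  classical
  intro t ht htw
  obtain ⟨E, hE, hEz, hEy⟩ : ∃ E : Derivation ℂ R R, H93.IsHField 𝒜 (χ - ψ) E ∧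
      (Wt 𝒜 (χ - ψ) → ∃ x, z.q (E x) ≠ 0) ∧
      (Wt 𝒜 (χ - ψ) → y.Pi (χ - ψ) → ∀ t : R →ₗ[ℂ] ℂ, IsTangent y.q t →
        HasWeight 𝒜 y.ν (χ - ψ) t → ∃ b : ℂ, ∀ x, t x = b * y.q (E x)) := by
    by_cases hw : Wt 𝒜 (χ - ψ)
    · obtain ⟨h3, h4⟩ := h1 hw
      obtain ⟨D, h5, h6, h7⟩ := vx_der H h3
      exact ⟨D, h5, fun _ => h6 z h4, fun _ => h7 y⟩
    · exact ⟨0, fun d m x _ => Submodule.zero_mem _, fun h => absurd h hw,
        fun h => absurd h hw⟩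
  have e1 : χ + 1 • (-ψ) = χ - ψ := by rw [one_smul, sub_eq_add_neg]
  obtain ⟨D, hD, c, hc1, hc2, hc3⟩ := transport H hφ hχ hy
    (E := fun k => if k = 1 then E else 0)
    (fun k => by
      by_cases hk : k = 1
      · subst hk
        simp only [if_pos]
        rw [e1]
        exact hE
      · simp only [if_neg hk]
        intro d m x _
        exact Submodule.zero_mem _)
    (fun k hk hpi t ht htw => by
      by_cases hk1 : k = 1
      · subst hk1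
        simp only [if_pos]
        rw [e1] at hpi htw
        exact hEy ⟨y, hpi⟩ hpi t ht htw
      · exact absurd ⟨y, hpi⟩ (h2 k (by omega)))
    (fun k hk hpi => absurd ⟨y, hpi⟩ (h2 k hk)) ht htw
  have hc0 : c = 0 := by
    by_cases hw : y.Pi (χ + (-ψ))
    · refine hc1 ?_
      simp only [if_pos]
      rw [← sub_eq_add_neg] at hw
      exact hEz ⟨y, hw⟩
    · exact hc2 hw
  refine ⟨D, hD, fun x => ?_⟩
  have h3 : (z.q.toLinearMap.comp (D : R →ₗ[ℂ] R)) = t := by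
    apply linearMap_ext_graded 𝒜
    rintro ⟨d, m⟩ h hh
    rw [hc3 d m h hh, hc0, zero_mul, add_zero]
    rfl
  exact LinearMap.congr_fun h3 x

end Vale.Agent.P280.H475T
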