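import Vale.Agent.P280.H475T.Bd2
import Vale.Agent.P280.H475T.Step

/-! P280, T7, helper475, (Bd2): the centre of a face is liftable at all fixed points. -/

open DirectSum Vale.Agent.P280.T Vale.Agent.P280.H127

namespace Vale.Agent.P280.H475T

open Vale.Agent.P280.N Vale.Agent.P280.H143

variable {r : ℕ} {R : Type} [CommRing R] [IsDomain R] [Algebra ℂ R]
  {𝒜 : ℕ × (Fin r → ℤ) → Submodule ℂ R} [GradedAlgebra 𝒜]
  {N : ℤ} {lam : Fin r → ℤ} {m : ℕ} {e : Fin m → Fin r → ℤ} {L0 : (Fin r → ℤ) →+ ℤ}
  {β : Fin m → Bool → ((Fin r → ℤ) →+ ℤ)} {E F : Fin m → Bool → VF R}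

/-- (Bd2). The centre of a face is liftable at all fixed points. -/
theorem FaceX.bd2 (H : H63X.Hyp 𝒜) (hcrit : Crit 𝒜) (hF : FaceX 𝒜 N lam m e L0 β E F)
    (z : FP 𝒜) : Lf 𝒜 z lam := by
  have hN := hF.N0
  have hposL := hF.pos
  obtain ⟨c, hc, hcL, hce⟩ := hF.exists_c H (fun i => (i : ℤ) + 1) (fun i => by positivity)
    (fun a b hab => ⟨by positivity, by
      intro h
      exact hab (Fin.ext (by omega))⟩)
  have hclam : 0 < c lam := hcL lam hF.wt hF.pos
  have hcep : ∀ a, 0 < c (e a) := fun a => by
    rw [hce]
    positivity
  refine fp_induct H c (P := fun z => Lf 𝒜 z lam) (fun z ih => ?_) z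
  by_cases hA : ∃ ψ, z.Pi ψ ∧ c ψ < 0 ∧ (L0 ψ < 0 ∨
      (∃ a b s s', a ≠ b ∧ ψ = sg s • e a + sg s' • e b) ∨ ∃ j, ψ = -e j ∧ z.Pi (lam + e j))
  · obtain ⟨ψ, hψ, hcψ, hcase⟩ := hA
    obtain ⟨y, n, φ, hφ⟩ := H641.exists_curve H z hψ
    obtain ⟨φ', hφ', -⟩ := H63X.exists_rev H hφ
    refine lf_step H hφ' ?_ ?_ ?_ (ih ψ y n φ' hφ' hcψ)
    · intro k h
      have h1 : c (lam + k • (-ψ)) = c lam - k * c ψ := by
        rw [map_add, map_nsmul, map_neg, nsmul_eq_mul]
        ring
      rw [h, map_zero] at h1
      have h2 : (k : ℤ) * c ψ ≤ 0 := mul_nonpos_of_nonneg_of_nonpos (by positivity) hcψ.le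
      omega
    · intro hw
      rcases hcase with h | ⟨a, b, s, s', hab, h⟩ | ⟨j, h, hj⟩
      · have h1 := hF.max _ hw
        rw [map_sub] at h1
        omega
      · refine absurd hw ?_
        have h1 := hF.no_wt hab (!s) (!s') (k := 1) le_rfl
        rw [one_smul, sg_not, sg_not] at h1
        have h2 : lam - ψ = lam + (-sg s • e a + -sg s' • e b) := by
          rw [h, neg_smul, neg_smul]
          abel
        rwa [h2]
      · have h1 : lam - ψ = lam + e j := by rw [h]; abel
        rw [h1]
        have h2 := hF.vt j true
        rw [vx_true] at h2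
        exact ⟨h2, hj⟩
    · intro k hk hw
      rcases hcase with h | ⟨a, b, s, s', hab, h⟩ | ⟨j, h, hj⟩
      · have h1 := hF.max _ hw
        have h2 : L0 (lam + k • (-ψ)) = L0 lam - k * L0 ψ := by
          rw [map_add, map_nsmul, map_neg, nsmul_eq_mul]
          ring
        have hk' : (2 : ℤ) ≤ k := by exact_mod_cast hk
        have h3 : (k : ℤ) * L0 ψ < 0 := mul_neg_of_pos_of_neg (by omega) h
        omega
      · refine absurd hw ?_
        have h1 := hF.no_wt hab (!s) (!s') (k := k) (by omega)
        rw [sg_not, sg_not] at h1
        have h2 : -ψ = -sg s • e a + -sg s' • e b := by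
          rw [h, neg_smul, neg_smul]
          abel
        rwa [h2]
      · rw [h, neg_neg] at hw
        exact hF.no_wt2 j hk hw
  · push Not at hA
    have hL0 : ∀ ψ, z.Pi ψ → c ψ < 0 → L0 ψ = 0 := by
      intro ψ hψ h0
      have h1 := (hA ψ hψ h0).1
      by_contra hne
      have h2 := hcL ψ ⟨z, hψ⟩ (by omega)
      omega
    by_cases hpos : ∃ ψ, z.Pi ψ ∧ c ψ < 0
    · obtain ⟨ψ, hψ, hcψ⟩ := hpos
      -- the stuck case
      obtain ⟨j, hj, hjw⟩ : ∃ j, z.Pi (-e j) ∧ ¬ z.Pi (lam + e j) := by
        obtain ⟨h1, h2, h3⟩ := hA ψ hψ hcψ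
        rcases hF.S ψ ⟨z, hψ⟩ (hL0 ψ hψ hcψ) with ⟨i, s, h⟩ | ⟨a, b, s, s', hab, h⟩
        · cases s
          · rw [sg_false, neg_one_smul] at h
            refine ⟨i, ?_, h3 i h⟩
            rwa [← h]
          · rw [sg_true, one_smul] at h
            have := hcep i
            rw [h] at hcψ
            omega
        · exact absurd h (h2 a b s s' hab)
      have posL : ∀ ψ, z.Pi ψ → 0 ≤ L0 ψ := by
        intro ψ hψ
        rcases lt_or_gt_of_ne (hc ψ ⟨z, hψ⟩) with h | h
        · exact (hL0 ψ hψ h).ge
        · by_contra hn
          push Not at hn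
          have h1 := hcL (-ψ) (H641.wt_neg H ⟨z, hψ⟩) (by rw [map_neg]; omega)
          rw [map_neg] at h1
          omega
      have nl : ¬ z.Pi (-lam) := by
        intro h
        have := posL _ h
        rw [map_neg] at this
        omega
      have g1 : ∀ i, i ≠ j → ¬ z.Pi (-e i - e j) := by
        intro i hi h
        have h1 := hcep i
        have h2 := hcep j
        refine (hA _ h (by rw [map_sub, map_neg]; omega)).2.1 i j false false hi ?_
        rw [sg_false, neg_one_smul, neg_one_smul, sub_eq_add_neg]
      have g2 : ∀ i, i ≠ j → ¬ z.Pi (lam - e i) := by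
        intro i hi h
        have h1 := hF.dt H hjw h (by
          rw [map_sub, hF.bl, hF.bt, if_neg hi, sub_zero]
          exact hN)
        have h2 : lam - e i - (lam + e j) = -e i - e j := by abel
        rw [h2] at h1
        exact g1 i hi h1
      have g3 : ∀ i, i ≠ j → ¬ z.Pi (-e i) := by
        intro i hi h
        have h1 := hF.df H (g2 i hi) h (by rw [map_neg, hF.bf, if_pos rfl]; omega)
        have h2 : -e i - (lam - e i) = -lam := by abel
        rw [h2] at h1
        exact nl h1
      have g4 : ∀ i, i ≠ j → ¬ z.Pi (e j - e i) := by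
        intro i hi h
        have h1 := hF.df H (g2 i hi) h (by
          rw [map_sub, hF.bf, hF.bf, if_pos rfl, if_neg (Ne.symm hi)]
          omega)
        have h2 := posL _ h1
        rw [map_sub, map_sub, map_sub, hF.lze, hF.lze] at h2
        omega
      have g5 : ¬ z.Pi (e j) := by
        intro h
        have h1 := hF.dt H hjw h (by rw [hF.bt, if_pos rfl]; exact hN)
        have h2 : e j - (lam + e j) = -lam := by abel
        rw [h2] at h1
        exact nl h1
      -- the other chamber
      obtain ⟨c', hc', hcL', hce'⟩ := hF.exists_c H (fun i => if i = j then -1 else (i : ℤ) + 2)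
        (fun i => by
          by_cases hi : i = j
          · simp only [if_pos hi]; norm_num
          · simp only [if_neg hi]; positivity)
        (fun a b hab => by
          by_cases ha : a = j
          · have hb : b ≠ j := fun h => hab (ha.trans h.symm)
            simp only [if_pos ha, if_neg hb]
            constructor <;> omega
          · by_cases hb : b = j
            · simp only [if_neg ha, if_pos hb]
              constructor <;> omega
            · simp only [if_neg ha, if_neg hb]
              refine ⟨by omega, fun h => hab (Fin.ext (by omega))⟩)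
      have hj' : c' (e j) = -N := by
        rw [hce']
        simp only [if_true]
        ring
      have hi' : ∀ i, i ≠ j → c' (e i) = ((i : ℤ) + 2) * N := by
        intro i hi
        rw [hce']
        simp only [if_neg hi]
      refine hF.bd1' H hcrit hc' hcL' (fun ψ hψ => ?_)
      by_contra hneg
      push Not at hneg
      have h0 : L0 ψ = 0 := by
        have h1 := posL ψ hψ
        by_contra hne
        have h2 := hcL' ψ ⟨z, hψ⟩ (by omega)
        omega
      rcases hF.S ψ ⟨z, hψ⟩ h0 with ⟨i, s, h⟩ | ⟨a, b, s, s', hab, h⟩
      · by_cases hi : i = j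
        · subst hi
          cases s
          · rw [h, sg_false, neg_one_smul, map_neg, hj'] at hneg
            omega
          · rw [sg_true, one_smul] at h
            rw [h] at hψ
            exact g5 hψ
        · cases s
          · rw [sg_false, neg_one_smul] at h
            rw [h] at hψ
            exact g3 i hi hψ
          · rw [h, sg_true, one_smul, hi' i hi] at hneg
            have : 0 < ((i : ℤ) + 2) * N := by positivity
            omega
      · -- sums of two
        have hcpos : 0 < c ψ := by
          rcases lt_or_gt_of_ne (hc ψ ⟨z, hψ⟩) with h1 | h1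
          · exact absurd h ((hA ψ hψ h1).2.1 a b s s' hab)
          · exact h1
        have hv : c ψ = (sg s * ((a : ℤ) + 1) + sg s' * ((b : ℤ) + 1)) * N := by
          rw [h, map_add, map_zsmul, map_zsmul, hce, hce, smul_eq_mul, smul_eq_mul]
          ring
        have hv1 : 0 < sg s * ((a : ℤ) + 1) + sg s' * ((b : ℤ) + 1) := by
          by_contra hn
          push Not at hn
          have := mul_nonpos_of_nonpos_of_nonneg hn hN.le
          omega
        have hv2 : c' ψ = sg s * c' (e a) + sg s' * c' (e b) := by
          rw [h, map_add, map_zsmul, map_zsmul, smul_eq_mul, smul_eq_mul]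
        have hna : (a : ℕ) ≠ b := fun h => hab (Fin.ext h)
        by_cases ha : a = j
        · have hb : b ≠ j := fun h => hab (ha.trans h.symm)
          rw [ha, hj', hi' b hb] at hv2
          cases s'
          · exfalso
            cases s
            · simp only [sg_false] at hv1
              omega
            · apply g4 b hb
              have : ψ = e j - e b := by
                rw [h, ha, sg_true, sg_false, one_smul, neg_one_smul, sub_eq_add_neg]
              rwa [← this]
          · have h1 : 2 * N ≤ ((b : ℤ) + 2) * N := by nlinarith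
            cases s <;> simp only [sg_true, sg_false] at hv2 <;> omega
        · by_cases hb : b = j
          · rw [hb, hj', hi' a ha] at hv2
            cases s
            · exfalso
              cases s'
              · simp only [sg_false] at hv1
                omega
              · apply g4 a ha
                have : ψ = e j - e a := by
                  rw [h, hb, sg_true, sg_false, one_smul, neg_one_smul, sub_eq_add_neg, add_comm]
                rwa [← this]
            · have h1 : 2 * N ≤ ((a : ℤ) + 2) * N := by nlinarith
              cases s' <;> simp only [sg_true, sg_false] at hv2 <;> omega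
          · rw [hi' a ha, hi' b hb] at hv2
            have h3 : c' ψ = (sg s * ((a : ℤ) + 2) + sg s' * ((b : ℤ) + 2)) * N := by
              rw [hv2]
              ring
            have h4 : 0 < sg s * ((a : ℤ) + 2) + sg s' * ((b : ℤ) + 2) := by
              cases s <;> cases s' <;> simp only [sg_true, sg_false] at hv1 ⊢ <;> omega
            have h5 := mul_pos h4 hN
            omega
    · push Not at hpos
      exact hF.bd1' H hcrit hc hcL (fun ψ hψ => hpos ψ hψ)

end Vale.Agent.P280.H475T
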