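import Vale.Agent.P280.H475T.Bd2b
import Vale.Agent.P280.H60.Rt
import Vale.Agent.P280.H63Y.NoOpp2
import Vale.Agent.P280.H63X.Fin

/-! P280, T7, helper475, (Bd): the boundary weights are liftable and of multiplicity one. -/

open DirectSum Vale.Agent.P280.T Vale.Agent.P280.H127

namespace Vale.Agent.P280.H475T

open Vale.Agent.P280.N Vale.Agent.P280.H143

variable {r : ℕ} {R : Type} [CommRing R] [IsDomain R] [Algebra ℂ R]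
  {𝒜 : ℕ × (Fin r → ℤ) → Submodule ℂ R} [GradedAlgebra 𝒜]

omit [IsDomain R] [GradedAlgebra 𝒜] in
/-- The hypotheses of route Y. -/
theorem toY (H : H63X.Hyp 𝒜) : H63Y.Hyp 𝒜 :=
  { hX := H.hX, hN := H.hN, iso := H.iso, tor := H.tor }

theorem bdy_neg (H : H63X.Hyp 𝒜) {χ : Fin r → ℤ} (h : H60.Bdy 𝒜 χ) : H60.Bdy 𝒜 (-χ) := by
  obtain ⟨l, h1, h2⟩ := h
  refine ⟨-l, ?_, fun ω hω => ?_⟩
  · rw [AddMonoidHom.neg_apply, map_neg, neg_neg]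
    exact h1
  · have h3 := h2 _ (H641.wt_neg H hω)
    rw [map_neg] at h3
    rwa [AddMonoidHom.neg_apply, AddMonoidHom.neg_apply, map_neg, neg_neg]

/-- Liftable boundary weights are not balanced. -/
theorem bdy_no_opp (H : H63X.Hyp 𝒜) {χ : Fin r → ℤ} (hB : H60.Bdy 𝒜 χ)
    (hL : ∀ y : FP 𝒜, Lf 𝒜 y χ) (hL' : ∀ y : FP 𝒜, Lf 𝒜 y (-χ)) {z : FP 𝒜} (h1 : z.Pi χ)
    (h2 : z.Pi (-χ)) : False := by
  obtain ⟨l, h3, h4⟩ := hB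
  refine H63Y.no_opp_ext' (toY H) (χ := χ) ?_ ?_ h3 h4 h1 h2
  · intro x ν hx0 hx _ v hv hw
    obtain ⟨D, h1, h2⟩ := hL ⟨x, ν, hx0, hx⟩ v hv hw
    exact ⟨D, h1, h2⟩
  · intro x ν hx0 hx _ v hv hw
    obtain ⟨D, h1, h2⟩ := hL' ⟨x, ν, hx0, hx⟩ v hv hw
    exact ⟨D, h1, h2⟩

/-- (Bd3). Multiplicity one. -/
theorem bdy_one (H : H63X.Hyp 𝒜) {χ : Fin r → ℤ} (hB : H60.Bdy 𝒜 χ)
    (hL : ∀ y : FP 𝒜, Lf 𝒜 y χ) (hL' : ∀ y : FP 𝒜, Lf 𝒜 y (-χ)) (y : FP 𝒜) (hχ : y.Pi χ) :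
    H60.One 𝒜 y χ := by
  rcases H63X.mult_or_both H.hX (fun z => H.iso z.q z.ν z.nv z.fix) y hχ with
    h | ⟨z, j, j', hj, hj', h1, h2⟩
  · exact h
  · exfalso
    obtain ⟨l, h3, h4⟩ := id hB
    have key : ∀ j : ℕ, 1 ≤ j → Wt 𝒜 (j • χ) → j = 1 := by
      intro j hj hw
      have h5 := h4 _ hw
      rw [map_nsmul, nsmul_eq_mul] at h5
      by_contra hne
      have : (2 : ℤ) ≤ j := by exact_mod_cast (by omega : 2 ≤ j)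
      nlinarith
    have hj1 := key j hj ⟨z, h1⟩
    have hj1' := key j' hj' (by
      have := H641.wt_neg H ⟨z, h2⟩
      rwa [neg_neg] at this)
    subst hj1
    subst hj1'
    rw [one_smul] at h1 h2
    exact bdy_no_opp H hB hL hL' h1 h2

/-- (Bd) from the lifting of the boundary weights. -/
theorem bd_of_lf (H : H63X.Hyp 𝒜)
    (hL : ∀ χ, Wt 𝒜 χ → H60.Bdy 𝒜 χ → ∀ y : FP 𝒜, Lf 𝒜 y χ) : H60.Bd 𝒜 := by
  intro y χ hχ hB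
  have h1 := hL χ ⟨y, hχ⟩ hB
  exact ⟨h1 y, bdy_one H hB h1 (hL _ (H641.wt_neg H ⟨y, hχ⟩) (bdy_neg H hB)) y hχ⟩

/-- (Bd), from the criterion and the structure of the faces. -/
theorem bd_of_crit (H : H63X.Hyp 𝒜) (hcrit : Crit 𝒜)
    (hface : ∀ χ, Wt 𝒜 χ → H60.Bdy 𝒜 χ → Vx 𝒜 χ ∨ ∃ N m e L0 β E F,
      FaceX 𝒜 N χ m e L0 β E F) : H60.Bd 𝒜 := by
  refine bd_of_lf H fun χ hw hB y => ?_
  rcases hface χ hw hB with h | ⟨N, m, e, L0, β, E, F, hF⟩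
  · exact lf_vx H h y
  · exact hF.bd2 H hcrit y

end Vale.Agent.P280.H475T
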