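import Vale.Agent.P280.H143.Transport

/-! P280, T7, helper475, (Bd): the statement of the lifting criterion. -/

open DirectSum Vale.Agent.P280.T Vale.Agent.P280.H127

namespace Vale.Agent.P280.H475T

open Vale.Agent.P280.N Vale.Agent.P280.H143

variable {r : ℕ} {R : Type} [CommRing R] [Algebra ℂ R]

/-- The lifting criterion. The tangent vectors of weight `χ` at a source `p` of `c` are liftable if
the directions of the polar parts at the walls are the vertices `w j` (`C2`), and at the points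
with two negative weights at which the field of weight `w j` vanishes there is no cohomology of
weight `w j - χ` (`C3`). -/
def Crit (𝒜 : ℕ × (Fin r → ℤ) → Submodule ℂ R) : Prop :=
  ∀ c : (Fin r → ℤ) →+ ℤ, (∀ μ, Wt 𝒜 μ → c μ ≠ 0) → ∀ p : FP 𝒜, Pos c p →
  ∀ (χ : Fin r → ℤ) (m : ℕ) (w : Fin m → Fin r → ℤ), Function.Injective w →
  (∀ j, Vx 𝒜 (w j)) → (∀ j, c χ < c (w j)) →
  (∀ (y : FP 𝒜) (b : Fin r → ℤ), y.Pi (-b) → 0 < c b → (∀ ψ, y.Pi ψ → ψ ≠ -b → 0 < c ψ) →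
    ∀ ω, y.Pi ω → ∀ (k : ℕ) (M : List (Fin r → ℤ)), 1 ≤ k → (∀ μ ∈ M, y.Pi μ ∧ 0 < c μ) →
      ω = χ + k • b + M.sum → ∃ j, ω = w j) →
  (∀ (z : FP 𝒜) (d0 d1 : Fin r → ℤ), z.Pi (-d0) → z.Pi (-d1) → 0 < c d0 → 0 < c d1 →
    (∀ ψ, z.Pi ψ → ψ ≠ -d0 → ψ ≠ -d1 → 0 < c ψ) → ∀ j, ¬ z.Pi (w j) →
    ∀ (k0 k1 : ℕ) (M : List (Fin r → ℤ)), 1 ≤ k0 → 1 ≤ k1 → (∀ μ ∈ M, z.Pi μ ∧ 0 < c μ) →
      w j ≠ χ + k0 • d0 + k1 • d1 + M.sum) →
  Lf 𝒜 p χ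

end Vale.Agent.P280.H475T
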