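import Vale.Agent.P280.H475T.Crit
import Vale.Agent.P280.H641.AC

/-! P280, T7, helper475, (Bd): faces and edges, the strings along the vertices. -/

open DirectSum Vale.Agent.P280.T Vale.Agent.P280.H127

namespace Vale.Agent.P280.H475T

open Vale.Agent.P280.N Vale.Agent.P280.H143

variable {r : ℕ} {R : Type} [CommRing R] [IsDomain R] [Algebra ℂ R]
  {𝒜 : ℕ × (Fin r → ℤ) → Submodule ℂ R}

/-- The face (or the edge, `m = 1`) with centre `lam`: its weights are `lam` and the vertices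
`lam ± e j`. -/
structure FaceX (𝒜 : ℕ × (Fin r → ℤ) → Submodule ℂ R) (N : ℤ) (lam : Fin r → ℤ) (m : ℕ)
    (e : Fin m → Fin r → ℤ) (L0 : (Fin r → ℤ) →+ ℤ) (β : Fin m → Bool → ((Fin r → ℤ) →+ ℤ))
    (E F : Fin m → Bool → VF R) : Prop where
  N0 : 0 < N
  m1 : 1 ≤ m
  wt : Wt 𝒜 lam
  pos : 0 < L0 lam
  max : ∀ ω, Wt 𝒜 ω → L0 ω ≤ L0 lam
  top : ∀ ω, Wt 𝒜 ω → L0 ω = L0 lam → ω = lam ∨ ∃ j s, ω = vx lam e j s
  lze : ∀ j, L0 (e j) = 0
  vt : ∀ j s, Vx 𝒜 (vx lam e j s)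
  root : ∀ j s, Root 𝒜 N (vx lam e j s) (β j s) (E j s) (F j s)
  bl : ∀ j s, β j s lam = N
  be : ∀ j s i, β j s (e i) = if i = j then sg s * N else 0
  S : ∀ μ, Wt 𝒜 μ → L0 μ = 0 → (∃ j s, μ = sg s • e j) ∨
    ∃ i j s s', i ≠ j ∧ μ = sg s • e i + sg s' • e j

variable [GradedAlgebra 𝒜]

/-- The string of a vertex, upwards. -/
theorem root_up (H : H63X.Hyp 𝒜) {N : ℤ} (hN : 0 < N) {a : Fin r → ℤ} {β : (Fin r → ℤ) →+ ℤ}
    {E F : VF R} (hr : Root 𝒜 N a β E F) {y : FP 𝒜} (hna : ¬ y.Pi (-a)) {χ : Fin r → ℤ}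
    (hχ : y.Pi χ) (hβ : β χ < 0) : y.Pi (χ + a) :=
  H63X.nef_string0 H hN (H155.toRoot0 hr) hr.int y hna hχ hβ

omit [IsDomain R] [GradedAlgebra 𝒜] in
theorem root0_neg [IsDomain R] {N : ℤ} {a : Fin r → ℤ} {β : (Fin r → ℤ) →+ ℤ} {E F : VF R}
    (hr : Root0 𝒜 N a β E F) : Root0 𝒜 N (-a) (-β) F E where
  globE := hr.globF
  globF := hr.globE
  hvE := hr.hvF
  hvF := by rw [neg_neg]; exact hr.hvE
  two := by rw [AddMonoidHom.neg_apply, map_neg, neg_neg, hr.two]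
  br := by
    obtain ⟨α, h⟩ := hr.br
    refine ⟨-α, fun d m x hx => ?_⟩
    rw [← lie_skew, Derivation.neg_apply, h d m x hx, AddMonoidHom.neg_apply]
    push_cast
    rw [neg_neg, ← neg_smul]
    congr 1
    ring

/-- The string of a vertex, downwards. -/
theorem root_down (H : H63X.Hyp 𝒜) {N : ℤ} (hN : 0 < N) {a : Fin r → ℤ} {β : (Fin r → ℤ) →+ ℤ}
    {E F : VF R} (hr : Root 𝒜 N a β E F) {y : FP 𝒜} (hna : ¬ y.Pi a) {χ : Fin r → ℤ}
    (hχ : y.Pi χ) (hβ : 0 < β χ) : y.Pi (χ - a) := by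
  have h := H63X.nef_string0 H hN (root0_neg (H155.toRoot0 hr))
    (fun ω hω => by rw [AddMonoidHom.neg_apply]; exact (hr.int ω hω).neg_right) y
    (by rw [neg_neg]; exact hna) hχ (by rw [AddMonoidHom.neg_apply]; omega)
  rwa [← sub_eq_add_neg] at h

variable {N : ℤ} {lam : Fin r → ℤ} {m : ℕ} {e : Fin m → Fin r → ℤ} {L0 : (Fin r → ℤ) →+ ℤ}
  {β : Fin m → Bool → ((Fin r → ℤ) →+ ℤ)} {E F : Fin m → Bool → VF R}

omit [GradedAlgebra 𝒜] in
theorem vx_flip (ε : Fin m → Bool) (j : Fin m) (s : Bool) :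
    vx lam (fun j => sg (ε j) • e j) j s = vx lam e j (s == ε j) := by
  rw [vx, vx, sg_beq, ← smul_smul]

omit [GradedAlgebra 𝒜] in
/-- Changing the signs of the `e j`. -/
theorem FaceX.flip (hF : FaceX 𝒜 N lam m e L0 β E F) (ε : Fin m → Bool) :
    FaceX 𝒜 N lam m (fun j => sg (ε j) • e j) L0 (fun j s => β j (s == ε j))
      (fun j s => E j (s == ε j)) (fun j s => F j (s == ε j)) := by
  have key : ∀ (j : Fin m) (s : Bool), sg s • e j =
      sg (s == ε j) • (fun j => sg (ε j) • e j) j := by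
    intro j s
    simp only
    rw [smul_smul, ← sg_beq, beq_beq]
  refine ⟨hF.N0, hF.m1, hF.wt, hF.pos, hF.max, ?_, ?_, ?_, ?_, ?_, ?_, ?_⟩
  · intro ω hω h0
    rcases hF.top ω hω h0 with h | ⟨j, s, h⟩
    · exact Or.inl h
    · refine Or.inr ⟨j, s == ε j, ?_⟩
      rw [vx_flip, beq_beq]
      exact h
  · intro j
    rw [map_zsmul, hF.lze, smul_zero]
  · intro j s
    rw [vx_flip]
    exact hF.vt j (s == ε j)
  · intro j s
    rw [vx_flip]
    exact hF.root j (s == ε j)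
  · intro j s
    exact hF.bl j (s == ε j)
  · intro j s i
    rw [map_zsmul, hF.be, smul_eq_mul]
    by_cases hij : i = j
    · subst hij
      rw [if_pos rfl, if_pos rfl, sg_beq]
      have := sg_mul_self (ε i)
      linear_combination (sg s * N) * this
    · rw [if_neg hij, if_neg hij, mul_zero]
  · intro μ hμ h0
    rcases hF.S μ hμ h0 with ⟨j, s, h⟩ | ⟨i, j, s, s', hij, h⟩
    · exact Or.inl ⟨j, s == ε j, by rw [h, key j s]⟩
    · refine Or.inr ⟨i, j, s == ε i, s' == ε j, hij, ?_⟩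
      rw [h, key i s, key j s']

omit [GradedAlgebra 𝒜] in
theorem vx_true (j : Fin m) : vx lam e j true = lam + e j := by
  rw [vx, sg_true, one_smul]

omit [GradedAlgebra 𝒜] in
theorem vx_false (j : Fin m) : vx lam e j false = lam - e j := by
  rw [vx, sg_false, neg_one_smul, ← sub_eq_add_neg]

omit [GradedAlgebra 𝒜] in
theorem FaceX.bt (hF : FaceX 𝒜 N lam m e L0 β E F) (j : Fin m) (i : Fin m) :
    β j true (e i) = if i = j then N else 0 := by
  rw [hF.be, sg_true, one_mul]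

omit [GradedAlgebra 𝒜] in
theorem FaceX.bf (hF : FaceX 𝒜 N lam m e L0 β E F) (j : Fin m) (i : Fin m) :
    β j false (e i) = if i = j then -N else 0 := by
  rw [hF.be, sg_false, neg_one_mul]

omit [GradedAlgebra 𝒜] in
theorem FaceX.lv (hF : FaceX 𝒜 N lam m e L0 β E F) (j : Fin m) (s : Bool) :
    L0 (vx lam e j s) = L0 lam := by
  rw [vx, map_add, map_zsmul, hF.lze, smul_zero, add_zero]

/-- Down along `lam + e j`. -/
theorem FaceX.dt (H : H63X.Hyp 𝒜) (hF : FaceX 𝒜 N lam m e L0 β E F) {y : FP 𝒜} {j : Fin m}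
    (h : ¬ y.Pi (lam + e j)) {χ : Fin r → ℤ} (hχ : y.Pi χ) (hβ : 0 < β j true χ) :
    y.Pi (χ - (lam + e j)) := by
  have h1 := hF.root j true
  rw [vx_true] at h1
  exact root_down H hF.N0 h1 h hχ hβ

/-- Down along `lam - e j`. -/
theorem FaceX.df (H : H63X.Hyp 𝒜) (hF : FaceX 𝒜 N lam m e L0 β E F) {y : FP 𝒜} {j : Fin m}
    (h : ¬ y.Pi (lam - e j)) {χ : Fin r → ℤ} (hχ : y.Pi χ) (hβ : 0 < β j false χ) :
    y.Pi (χ - (lam - e j)) := by
  have h1 := hF.root j false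
  rw [vx_false] at h1
  exact root_down H hF.N0 h1 h hχ hβ

/-- Up along `lam + e j`. -/
theorem FaceX.ut (H : H63X.Hyp 𝒜) (hF : FaceX 𝒜 N lam m e L0 β E F) {y : FP 𝒜} {j : Fin m}
    (h : ¬ y.Pi (-(lam + e j))) {χ : Fin r → ℤ} (hχ : y.Pi χ) (hβ : β j true χ < 0) :
    y.Pi (χ + (lam + e j)) := by
  have h1 := hF.root j true
  rw [vx_true] at h1
  exact root_up H hF.N0 h1 h hχ hβ

/-- Up along `lam - e j`. -/
theorem FaceX.uf (H : H63X.Hyp 𝒜) (hF : FaceX 𝒜 N lam m e L0 β E F) {y : FP 𝒜} {j : Fin m}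
    (h : ¬ y.Pi (-(lam - e j))) {χ : Fin r → ℤ} (hχ : y.Pi χ) (hβ : β j false χ < 0) :
    y.Pi (χ + (lam - e j)) := by
  have h1 := hF.root j false
  rw [vx_false] at h1
  exact root_up H hF.N0 h1 h hχ hβ

/-- The `e j` are weights. -/
theorem FaceX.we (H : H63X.Hyp 𝒜) (hF : FaceX 𝒜 N lam m e L0 β E F) (j : Fin m) :
    Wt 𝒜 (e j) := by
  have h := H641.reflect_wt H hF.N0 (hF.vt j true) (hF.root j true) (H641.wt_neg H hF.wt)
    (by rw [map_neg, hF.bl])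
  rwa [vx_true, neg_add_cancel_left] at h

end Vale.Agent.P280.H475T
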