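import Vale.Agent.P280.H475T.InstF
import Vale.Agent.P280.H475T.Base
import Vale.Agent.P280.H475T.Bd4
import Vale.Agent.P280.H60.Crit2

/-! P280, T7, helper475: `Bd`, the base chamber and the bad end from `CritData`. -/

open DirectSum Vale.Agent.P280.T Vale.Agent.P280.H127

namespace Vale.Agent.P280.H475T

open Vale.Agent.P280.N Vale.Agent.P280.N.H989 Vale.Agent.P280.H143 Vale.Agent.P280.N2

variable {r : ℕ} {R : Type} [CommRing R] [IsDomain R] [Algebra ℂ R]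
  {𝒜 : ℕ × (Fin r → ℤ) → Submodule ℂ R} [GradedAlgebra 𝒜]

theorem critD (hdat : H60.CritData 𝒜) : CritD 𝒜 := by
  intro c hc p hp χ w hinj E hE hcw g hg hgp hgs hgv C3
  by_cases hex : ∃ μ, Wt 𝒜 μ
  · obtain ⟨x, h1, -, h2, h3⟩ := hdat c hc hex p hp χ Bool w hinj E hE hcw 0 HV.zero RgV.zero g hg
      hgp hgs (fun y b hy => by
        rw [zero_sub]
        exact (hgv y b hy).neg) (fun z b b' k1 k2 k3 k4 k5 _ => C3 z b b' k1 k2 k3 k4 k5)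
    refine ⟨x, h1, h2, ?_⟩
    rw [zero_sub] at h3
    have := h3.neg
    rwa [neg_neg] at this
  · refine ⟨0, fun i => HK.zero le_rfl, fun y b hy => absurd ⟨_, y, hy.pi⟩ hex, ?_⟩
    simp only [Pi.zero_apply, zero_smul, Finset.sum_const_zero]
    exact Glob.zero

theorem bd_of_data (H : H63X.Hyp 𝒜) (hdat : H60.CritData 𝒜) : H60.Bd 𝒜 :=
  bd_of_crit' H (H60.crit_vx H hdat)

section
variable {N : ℤ} {n : ℕ} {f : Fin (n + 1) → Fin r → ℤ}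
  {β : Fin (n + 1) → Fin (n + 1) → ((Fin r → ℤ) →+ ℤ)} {E F : Fin (n + 1) → Fin (n + 1) → VF R}
  {c : (Fin r → ℤ) →+ ℤ}

theorem base' (H : H63X.Hyp 𝒜) (hdat : H60.CritData 𝒜) (hA : AC 𝒜 N n f β E F)
    (hv : NoVec 𝒜 n f) (hc : Ch2 𝒜 n f c) {p : FP 𝒜} (hp : Pos c p) :
    Lf 𝒜 p (-f (Fin.last n)) :=
  base H (H60.crit_vx H hdat) hA hv hc hp

theorem bad_end' (H : H63X.Hyp 𝒜) (hdat : H60.CritData 𝒜)
    (hA : AC 𝒜 N n f β E F) (hv : NoVec 𝒜 n f) (hc : Ch2 𝒜 n f c) {p : FP 𝒜} (hp : Pos c p)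
    {z : FP 𝒜} (hz : z.Pi (-f 1)) (h1 : H60.One 𝒜 z (-f 1))
    (hoth : ∀ ψ, z.Pi ψ → ψ ≠ -f 1 → 0 < c ψ) (hnv : ¬ z.Pi (f 1 - f (Fin.last n))) :
    Lf 𝒜 z (-f (Fin.last n)) :=
  bad_end H (critD hdat) (frameD H) hA hv hc hp hz h1 hoth hnv

end

end Vale.Agent.P280.H475T
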