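import Vale.Agent.P280.H475T.BadEnd
import Vale.Agent.P280.H60.Frame

/-! P280, T7, helper475: the polar part at a wall, instance. -/

open DirectSum Vale.Agent.P280.T Vale.Agent.P280.H127

namespace Vale.Agent.P280.H475T

open Vale.Agent.P280.N

variable {r : ℕ} {R : Type} [CommRing R] [IsDomain R] [Algebra ℂ R]
  {𝒜 : ℕ × (Fin r → ℤ) → Submodule ℂ R} [GradedAlgebra 𝒜]

theorem frameD (H : H63X.Hyp 𝒜) : FrameD 𝒜 :=
  fun _ _ _ W _ _ hv _ _ hz _ hk hχ w hinj E hE hat C2 =>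
    H60.frame H W hv hz hk hχ w hinj E hE hat C2

end Vale.Agent.P280.H475T
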