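import Vale.Agent.P280.H475T.Inst
import Vale.Agent.P280.H641.IntA

/-! P280, T7, helper475: the interior weights of type `A`, from `CritData`. -/

open DirectSum Vale.Agent.P280.T Vale.Agent.P280.H127

namespace Vale.Agent.P280.H475T

open Vale.Agent.P280.N Vale.Agent.P280.N.H989 Vale.Agent.P280.H143 Vale.Agent.P280.N2

variable {r : ℕ} {R : Type} [CommRing R] [IsDomain R] [Algebra ℂ R]
  {𝒜 : ℕ × (Fin r → ℤ) → Submodule ℂ R} [GradedAlgebra 𝒜]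

theorem badP (H : H63X.Hyp 𝒜) (hdat : H60.CritData 𝒜) : H641.BadP 𝒜 :=
  fun _ _ _ _ _ _ hA hv _ hc _ hp _ _ _ _ hz h1 hoth hnv _ =>
    bad_end' H hdat hA hv hc hp hz h1 hoth hnv

theorem int_A' (H : H63X.Hyp 𝒜) (hdat : H60.CritData 𝒜) {N : ℤ} {n : ℕ}
    {f : Fin (n + 1) → Fin r → ℤ} {β : Fin (n + 1) → Fin (n + 1) → ((Fin r → ℤ) →+ ℤ)}
    {E F : Fin (n + 1) → Fin (n + 1) → VF R} {c : (Fin r → ℤ) →+ ℤ}
    (hA : AC 𝒜 N n f β E F) (hv : NoVec 𝒜 n f) (hc : ∀ μ, Wt 𝒜 μ → c μ ≠ 0) {p : FP 𝒜}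
    (hp : Pos c p) (L : Fin (n + 1)) : Lf 𝒜 p (-f L) :=
  H641.int_A H (H60.crit_vx H hdat) (badP H hdat) hA hv hc hp L

end Vale.Agent.P280.H475T
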